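import Vale.Agent.P218N.Xt.Stmt

/-! The block EXT: the fields about the parameters. -/

open Filter Topology Metric Set Complex

noncomputable section

namespace Vale.Agent.P218N.Xt

open Vale.Agent.P218N.End Vale.Agent.P218N.J Vale.Agent.P218N.Glue Vale.Agent.P218N.Core
  Vale.Agent.P218N.H Vale.Agent.P218N.Ra Vale.Agent.P218F

namespace AP

theorem norm_comp {ι κ : Type} [Fintype ι] [Fintype κ] (ξ : ι → ℂ) (f : κ → ι) :
    ‖fun i => ξ (f i)‖ ≤ ‖ξ‖ :=
  (pi_norm_le_iff_of_nonneg (norm_nonneg _)).2 fun _ => norm_le_pi_norm ξ _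

variable {w : E3 → ℝ} {D : EndData w} {N M : ℕ} (Y : Sit D N M)

theorem hol : DifferentiableOn ℂ (fun ξ => Y.tp (pp Y.X ξ 0)) (ball 0 Y.rX) := by
  obtain ⟨c₁, CX, P₀, h⟩ := Y.ctx.coord
  refine Y.tp.differentiable.comp_differentiableOn (DifferentiableOn.prodMk (by fun_prop)
    (DifferentiableOn.prodMk (h.hol.comp (by fun_prop) fun ξ hξ => ?_) (differentiableOn_const _)))
  have := mem_ball_zero_iff.1 hξ
  exact ⟨mem_ball_zero_iff.2 ((norm_comp ξ _).trans_lt this),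
    mem_ball_zero_iff.2 (((norm_comp ξ _).trans_lt this).trans_le h.rX1)⟩

theorem pp_zero (π : Dat (Fin D.b) (Fin D.a)) : pp Y.X 0 π = (0, 0, π) := by
  obtain ⟨c₁, CX, P₀, h⟩ := Y.ctx.coord
  exact Prod.ext rfl (Prod.ext h.zero rfl)

theorem yinj (b : Fin N ⊕ Fin D.b → ℝ) (hb : ∀ k, (fderiv ℂ Y.yf 0 (re2c b) k).re = 0) :
    b = 0 := by
  obtain ⟨c₁, CX, P₀, h⟩ := Y.ctx.coord
  have l : HasDerivAt (fun t : ℂ => t • re2c b) (re2c b) 0 := by
    simpa using (hasDerivAt_id (0 : ℂ)).smul_const (re2c b)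
  have d0 : DifferentiableAt ℂ Y.yf 0 := (hol Y).fst.differentiableAt (ball_mem_nhds _ h.rX0)
  have d := fun k => hasDerivAt_pi.1 (d0.hasFDerivAt.comp_hasDerivAt_of_eq (0 : ℂ) l (by simp)) k
  have h1 : ∀ k, b (.inl k) = 0 := fun k => by
    have := (d (.inl k)).unique (hasDerivAt_pi.1 l (.inl k))
    have h2 := hb (.inl k)
    rwa [this] at h2
  have τ1 := Y.E.τ1
  have h2 : ∀ i, ‖b (.inr i)‖ ≤ 1 / 50 * ‖re2c b‖ := fun i => by
    have s0 : 0 < |Y.g i * TT Y.zm Y.n|⁻¹ := inv_pos.2 (abs_pos.2 (mul_ne_zero (Y.hg i).1 Y.E.T0.ne'))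
    have h3 := ((d (.inr i)).fun_sub ((hasDerivAt_id (0 : ℂ)).mul_const
      ((((Y.g i * TT Y.zm Y.n)⁻¹ * (Y.S.τ * b (.inr i)) : ℝ)) : ℂ))).le_of_lip'
      (C := |Y.g i * TT Y.zm Y.n|⁻¹ * (1 / 50 * Y.S.τ * ‖re2c b‖)) (by positivity) (by
        filter_upwards [l.continuousAt.eventually (ball_mem_nhds _ h.rX0)] with t ht
        simp only [zero_smul, dist_zero_right] at ht
        have h4 := h.x2 (fun i => (t • re2c b) (.inr i)) 0 0 ((norm_comp _ _).trans_lt ht)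
          (by simpa using h.rX0) (by simpa using Y.E.r0) i
        have h5 := (Lk.norm_yC (Y.g i * TT Y.zm Y.n) _).trans (mul_le_mul_of_nonneg_left (h4.trans
          (mul_le_mul_of_nonneg_left ((congrArg norm (sub_zero _)).trans_le
            (norm_comp (t • re2c b) Sum.inr)) (by positivity))) s0.le)
        have e : (fun k => (t • re2c b) (.inl k)) = 0 := funext fun k => by simp [re2c, h1]
        rw [norm_smul] at h5
        refine (le_of_eq ?_).trans (h5.trans_eq (by rw [sub_zero]; ring))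
        congr 1
        simp only [Function.comp_apply, Sit.yf, toPar_apply, zero_smul, pp_zero, map_sub, map_smul]
        simp only [pp, e, Sum.elim_inr, show Y.X (0, 0) = 0 from h.zero]
        simp [yC, re2c, c_one_zero]
        ring)
    have h4 := (abs_re_le_norm _).trans h3
    rw [sub_re, hb, one_mul, ofReal_re, zero_sub, abs_neg, abs_mul,
      abs_inv, mul_le_mul_iff_right₀ s0, abs_mul, abs_of_pos (by linarith : 0 < Y.S.τ)] at h4
    exact le_of_mul_le_mul_left (h4.trans_eq (by ring)) (by linarith : 0 < Y.S.τ)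
  have h3 : ‖re2c b‖ ≤ 1 / 50 * ‖re2c b‖ := (pi_norm_le_iff_of_nonneg (by positivity)).2 fun k => by
    rw [re2c, norm_real]
    cases k
    · rw [h1, norm_zero]
      positivity
    · exact h2 _
  have h4 : re2c b = 0 := norm_le_zero_iff.1 (by linarith [norm_nonneg (re2c b)])
  exact funext fun k => ofReal_eq_zero.1 (congrFun h4 k)

end AP

open AP in
theorem aStmt_of (hS : SlStmt) : AStmt := by
  intro w D N M Y π j k F c C R0 h
  obtain ⟨c₁, CX, P₀, hc⟩ := Y.ctx.coord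
  have T0 := Y.E.T0
  have TR : ∀ R : ℕ, R0 ≤ R → 8 * Y.S.T ≤ R := fun R hR => h.TR.trans (Nat.cast_le.2 hR)
  have sg1 : ∀ R : ℕ, R0 ≤ R → (sg Y.S.T R).RealP Y.S.T ∧ ((sg Y.S.T R).ze 1).re = R :=
    fun R hR => by
      obtain ⟨h1, h2⟩ := Y.E.sub.1 Y.S.T R (by linarith [TR R hR])
      rw [ofReal_natCast] at h1 h2
      exact ⟨h1, by rw [h2, natCast_re]⟩
  have ex : ∀ R : ℕ, R0 ≤ R → ∀ {p p' : Dat (Fin D.b) (Fin D.a)} {j j' k k'},
      Cl Y.S (sg Y.S.T R) p p' j j' k k' → ‖Sum.elim (p' - p).2 (p' - p).1‖ ≤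
        Real.exp (Y.S.T / 8) * Real.exp (-(1 / 40 * R)) := fun R hR _ _ _ _ _ _ H => by
    refine (Lk.norm_elim _).trans (H.pi.trans ?_)
    rw [(sg1 R hR).2, ← Real.exp_add]
    exact Real.exp_le_exp.2 (by linarith [TR R hR])
  refine ⟨Real.exp (Y.S.T / 8), (Real.exp_pos _).le, (hol Y).fst, (hol Y).snd.fst, ?_, ?_, yinj Y,
    fun R hR => differentiableOn_pi.2 fun e => ?_, fun R hR ξ hξ => ?_, fun R hR ξ hξ => ?_,
    fun R hR => ?_, fun R hR x hx => ?_⟩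
  · rw [Sit.yf, pp_zero, Lk.toPar_pi]
  · rw [Sit.cf, pp_zero, Lk.toPar_pi]
  · cases e
    exacts [differentiableOn_pi.1 (h.hol R hR).snd _, differentiableOn_pi.1 (h.hol R hR).fst _]
  · rw [Sit.xx_eq]
    exact Y.hr _ (h.ms R hR ξ hξ).ball
  · have hR' := hR.trans R.le_succ
    have h1 := TR R hR
    have h2 : ξ ∈ Dom (II (Fin N) (Fin D.b)) c Y.rX R := ⟨hξ.1, fun i hi => (hξ.2 i hi).trans_le
      (div_le_div_of_nonneg_left h.c0.le (by linarith) (Nat.cast_le.2 R.le_succ))⟩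
    obtain ⟨φ, h3, h4⟩ := Y.E.sub.2.1 _ Y.S.T (R + 1 : ℕ) (sg1 R hR).1 (by push_cast; linarith)
      ((sg1 R hR).2.trans_le (Nat.cast_le.2 R.le_succ))
    rw [ofReal_natCast] at h3
    refine le_of_eq_of_le (congrArg norm (funext fun e => ?_)) (ex R hR (((hS _ _ _ Y.S Y.E Y.ctx.cmp
      Y.ctx.restr _ (sg1 R hR).1).2 (pp Y.X ξ (π R ξ)) (pp Y.X ξ (π (R + 1) ξ)) _ _ _ _ rfl rfl
        (h.ms R hR ξ h2)).2 _ φ (sg1 _ hR').1 h3 h4 (h.ms _ hR' ξ hξ)))
    cases e <;> rfl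
  · have h1 := TR R hR
    obtain ⟨h2, h3⟩ := hS _ _ _ Y.S Y.E Y.ctx.cmp Y.ctx.restr _ (sg1 R hR).1
    have h4 := h.ms R hR 0 ⟨by simpa using hc.rX0, fun i _ => by
      simpa using div_pos h.c0 (by linarith)⟩
    rw [pp_zero] at h4
    have := ex R hR ((h3 0 (0, 0, π R 0) _ _ _ _ rfl rfl h2).1 h4)
    rwa [show (0 : CP (Fin N) (Fin D.b) (Fin D.a)).2.2 = 0 from rfl, sub_zero] at this
  · have e : ∀ {ι : Type} (x : ι → ℝ), star (re2c x) = re2c x := fun x =>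
      funext fun i => conj_ofReal _
    have h1 := (h.cj R hR _ hx).1
    have h2 := hc.real _ _ ((norm_comp _ Sum.inr).trans_lt hx.1)
      (((norm_comp _ Sum.inl).trans_lt hx.1).trans_le hc.rX1)
    rw [e] at h1
    rw [Sit.xx_eq, ← Lk.toPar_cj]
    refine congrArg _ (Prod.ext (e fun i => x (.inl i)) (Prod.ext (h2.symm.trans ?_) h1.symm))
    exact congrArg Y.X (Prod.ext (e fun i => x (.inr i)) (e fun i => x (.inl i)))

end Vale.Agent.P218N.Xt
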