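import Vale.Agent.P218N.Xt.Stmt
import Vale.Agent.P218N.Glue.Fv

/-! The block EXT: the first variation of the truncated Gaussian area. -/

open Filter Topology Metric Set Complex

noncomputable section

namespace Vale.Agent.P218N.Xt

open Vale.Agent.P218N.End Vale.Agent.P218N.J Vale.Agent.P218N.Glue Vale.Agent.P218F

namespace DFP

variable {ι : Type} [Fintype ι] {I : Finset ι} {c r : ℝ} {R : ℕ} {ξ : ι → ℂ}

theorem isOpen_dom : IsOpen (Dom I c r R) :=
  isOpen_iff_mem_nhds.2 fun _ hξ => Eventually.and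
    ((isOpen_lt continuous_norm continuous_const).mem_nhds hξ.1)
    ((eventually_all_finset _).2 fun i hi =>
      (isOpen_lt (continuous_apply i).norm continuous_const).mem_nhds (hξ.2 i hi))

theorem ball_sub {s : ℝ} (h : ξ ∈ Dom I (c / 2) (r / 2) R) (h1 : s ≤ c / 2 / R) (h2 : s ≤ r / 2) :
    ball ξ s ⊆ Dom I c r R := fun η hη => by
  have a := mem_ball_iff_norm.1 hη
  refine ⟨by linarith [norm_le_norm_add_norm_sub' η ξ, h.1], fun i hi => ?_⟩
  have b : ‖η i - ξ i‖ ≤ ‖η - ξ‖ := norm_le_pi_norm (η - ξ) i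
  have d : c / R = c / 2 / R + c / 2 / R := by ring
  linarith [norm_le_norm_add_norm_sub' (η i) (ξ i), h.2 i hi]

/-- the Cauchy estimate -/
theorem cauchy {B : Type} [NormedAddCommGroup B] [NormedSpace ℂ B] {f : (ι → ℂ) → B}
    (hr : 0 < r) (hR : (1 : ℝ) ≤ R) (h : ξ ∈ Dom I (1 / 1000 / 2) (r / 2) R)
    (hf : DifferentiableOn ℂ f (Dom I (1 / 1000) r R)) (f₀ : B)
    (hb : ∀ η ∈ Dom I (1 / 1000) r R, ‖f η - f₀‖ ≤ 1) (v : ι → ℂ) :
    ‖fderiv ℂ f ξ v‖ ≤ 2 * (2000 + 2 / r) * R * ‖v‖ := by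
  have a : 0 < 2 / r := by positivity
  have hs : ball ξ (1 / ((2000 + 2 / r) * R)) ⊆ Dom I (1 / 1000) r R := ball_sub h
    ((one_div_le_one_div_of_le (a := (2000 * R : ℝ)) (by positivity) (by nlinarith)).trans_eq (by ring))
    ((one_div_le_one_div_of_le a (by nlinarith)).trans_eq (one_div_div _ _))
  have b := norm_fderiv_le_of_bdd (f := fun η => f η - f₀) (by positivity)
    ((hf.mono hs).sub_const _) fun η hη => hb η (hs hη)
  rw [fderiv_sub_const, mul_one, div_div_eq_mul_div, div_one, ← mul_assoc] at b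
  exact (fderiv ℂ f ξ).le_of_opNorm_le b v

theorem absorb {x : ℝ} (hx : 0 ≤ x) :
    x ^ 2 * Real.exp (-(x / 5)) ≤ 400 * Real.exp (-(x / 8)) := by
  have a := Real.pow_div_factorial_le_exp (3 * x / 40) (by positivity) 2
  have b : Real.exp (-(x / 8)) = Real.exp (3 * x / 40) * Real.exp (-(x / 5)) := by
    rw [← Real.exp_add]
    congr 1
    ring
  rw [b, ← mul_assoc]
  refine mul_le_mul_of_nonneg_right ?_ (Real.exp_pos _).le
  norm_num [Nat.factorial] at a
  nlinarith [sq_nonneg x]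

end DFP

open DFP FvP

theorem dfStmt : DFStmt := by
  intro J0 Cy Co _ _ _ _ _ S E X rX R0 u h H
  obtain ⟨_, _, _, hc⟩ := h.coord
  have hr := hc.rX0
  have hC := E.C0
  have hT := E.T_ge
  obtain ⟨A, hA, hA0⟩ : ∃ A, A = 2 * (2000 + 2 / rX) ∧ 0 ≤ A := ⟨_, rfl, by positivity⟩
  refine ⟨(∑ _i : Cy, E.C * (1 + 3) ^ 2 * Real.exp 3 * (2 * A) * 400) + ∑ _e : Co, E.C * A * 400,
    by positivity, fun R hR ξ hξ v => ?_⟩
  have hTR : S.T ≤ R := H.TR.le.trans (Nat.cast_le.2 hR)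
  have h1R : (1 : ℝ) ≤ R := by linarith
  obtain ⟨hp, he⟩ := E.sub.1 _ _ hTR
  have hP : ((sg S.T (R : ℝ)).ze 1).re ≤ R := by rw [he, ofReal_re]
  have hu := H.hol R hR
  have hs := H.sol R hR
  have ha : ∀ η ∈ Dom (II J0 Cy) (1 / 1000) rX R, ∀ i, ‖(u R η).a i‖ ≤ 1 / (4 * R) :=
    fun η hη i => ((hs η hη).2 i).trans (one_div_le_one_div_of_le (by positivity) (by linarith))
  have hβ : DifferentiableOn ℂ (fun (η : J0 ⊕ Cy → ℂ) i => η (.inr i))
      (Dom (II J0 Cy) (1 / 1000) rX R) :=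
    (differentiable_pi.2 fun i => differentiable_apply _).differentiableOn
  have hb : DifferentiableOn ℂ (fun (η : J0 ⊕ Cy → ℂ) i => η (.inl i))
      (Dom (II J0 Cy) (1 / 1000) rX R) :=
    (differentiable_pi.2 fun i => differentiable_apply _).differentiableOn
  have hm : ξ ∈ Dom (II J0 Cy) (1 / 1000) rX R :=
    ⟨by linarith [hξ.1], fun i hi => (hξ.2 i hi).trans_le
      (div_le_div_of_nonneg_right (by norm_num) (by linarith))⟩
  have e := (h.fv _ _ (fun η => pp X η (u R η).π) (fun η => (u R η).a) (fun _ _ => sg S.T (R : ℝ))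
    (fun η => (u R η).j) (fun _ => sg S.T (R : ℝ)) (fun η => (u R η).k) isOpen_dom
    (hb.prodMk ((hc.hol.comp (hβ.prodMk hb) fun η hη => ⟨mem_ball_zero_iff.2
      ((pi_norm_lt_iff hr).2 fun i => (norm_le_pi_norm η _).trans_lt hη.1), mem_ball_zero_iff.2
      ((pi_norm_lt_iff E.r0).2 fun i =>
        ((norm_le_pi_norm η _).trans_lt hη.1).trans_le hc.rX1)⟩).prodMk hu.π)) hu.a
    (fun _ => differentiableOn_const _) (fun _ => differentiableOn_const _) hu.j hu.k (fun _ => hp)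
    fun η hη => ⟨(hs η hη).1.ms, fun i =>
      ⟨(hs η hη).1.sa i, E.admP_real hp E.K_le_T hP (ha η hη i)⟩⟩).2 _ (fun _ _ => rfl) ξ hm v
  have x5 := absorb (x := R) (by linarith)
  have x4 : Real.exp (-((R : ℝ) / 4)) ≤ Real.exp (-((R : ℝ) / 5)) :=
    Real.exp_le_exp.2 (by linarith)
  have hv := norm_nonneg v
  have hRR : A * R * ‖v‖ ≤ A * R ^ 2 * ‖v‖ := by gcongr; nlinarith
  rw [show fderiv ℂ (FU E X u R) ξ v = _ from e, add_assoc, add_sub_cancel_left, add_mul, add_mul,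
    Finset.sum_mul, Finset.sum_mul, Finset.sum_mul, Finset.sum_mul]
  refine (norm_add_le _ _).trans (add_le_add (norm_sum_le_of_le _ fun i _ => ?_)
    (norm_sum_le_of_le _ fun k _ => ?_))
  · have n := hp.rh_near (by linarith) (fun t => (re_le_end hp t).trans hP) (ha ξ hm i)
    have a1 := cauchy hr h1R hξ (differentiableOn_pi.1 hu.a i) 0 (fun η hη => by
      rw [sub_zero]
      exact (ha η hη i).trans ((div_le_one (by positivity)).2 (by linarith))) v
    have a2 := (EJ.norm_y_le _).trans (cauchy hr h1R hξ (differentiableOn_pi.1 hu.j i) 0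
      (fun η hη => by
        rw [sub_zero]
        exact (ms_j E (hs η hη).1.ms i).trans ((div_le_one hC).2 E.C1)) v)
    have a3 : uu ((u R ξ).a i) ((sg S.T (R : ℝ)).ze 1) ≤ R := by
      have b := norm_sub_norm_le (2 : ℂ) (2 - rh ((u R ξ).a i) ((sg S.T (R : ℝ)).ze 1))
      rw [sub_sub_cancel, norm_sub_rev, Complex.norm_two] at b
      rw [uu, norm_div, hp.norm_ze (by linarith)]
      exact (div_le_self (by linarith [hp.T_le 1]) (by linarith [n 1])).trans hP
    rw [← hA] at a1 a2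
    refine ((((E.lagC S.T E.K_le_T).2.2 _ _ _ 3 (a_le E ((hs ξ hm).1.sa i))
      (E.admP_real hp E.K_le_T hP (ha ξ hm i)) (ms_j E (hs ξ hm).1.ms i)).2 fun t => ?_).2 1 _ _).trans
      ?_
    · linarith [n t, norm_le_norm_add_norm_sub' (rh ((u R ξ).a i) ((sg S.T (R : ℝ)).ze t)) 2,
        Complex.norm_two]
    · have a4 := add_le_add (a2.trans hRR) (mul_le_mul a3 a1 (norm_nonneg _) (by linarith))
      rw [show ((sg S.T (R : ℝ)).ze 1).re = R by rw [he, ofReal_re]]
      calc _ ≤ E.C * (1 + 3) ^ 2 * Real.exp 3 * Real.exp (-((R : ℝ) / 5)) *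
            (A * R ^ 2 * ‖v‖ + R * (A * R * ‖v‖)) := by
              refine mul_le_mul (by gcongr) a4 ?_ (by positivity)
              exact add_nonneg (norm_nonneg _) (mul_nonneg (norm_nonneg _) (norm_nonneg _))
        _ = E.C * (1 + 3) ^ 2 * Real.exp 3 * (2 * A) * (R ^ 2 * Real.exp (-((R : ℝ) / 5))) * ‖v‖ := by
              ring
        _ ≤ E.C * (1 + 3) ^ 2 * Real.exp 3 * (2 * A) * (400 * Real.exp (-((R : ℝ) / 8))) * ‖v‖ := by
              gcongr
        _ = _ := by ring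
  · obtain ⟨a1, a2⟩ := ms_k E (hs ξ hm).1.ms (e := k) hp
    have a3 := (EJ.norm_y_le _).trans (cauchy hr h1R hξ (differentiableOn_pi.1 hu.k k)
      (S.kS k (sg S.T (R : ℝ))) (fun η hη => ((le_nrm _ _ _).trans ((hs η hη).1.ms.ncone k)).trans
        (by linarith [E.δ_le, E.δ0])) v)
    rw [← hA] at a3
    refine (((E.lagK k _ hp).2 _ a1 a2).2.2.2 1 _).trans ?_
    rw [he, ofReal_re]
    calc _ ≤ E.C * Real.exp (-((R : ℝ) / 5)) * (A * R ^ 2 * ‖v‖) :=
          mul_le_mul_of_nonneg_left (a3.trans hRR) (by positivity)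
      _ = E.C * A * (R ^ 2 * Real.exp (-((R : ℝ) / 5))) * ‖v‖ := by ring
      _ ≤ E.C * A * (400 * Real.exp (-((R : ℝ) / 8))) * ‖v‖ := by gcongr
      _ = _ := by ring

end Vale.Agent.P218N.Xt
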