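import Vale.Agent.P218N.Xt.Stmt
import Vale.Agent.P218N.End.ApiLag

/-! The block EXT: the torque on real paths, the derivative of the area. -/

open Filter Topology Metric Set Complex

noncomputable section

namespace Vale.Agent.P218N.Xt

open Vale.Agent.P218N.End Vale.Agent.P218N.J Vale.Agent.P218N.Glue Vale.Agent.P218N.Core
  Vale.Agent.P218N.H Vale.Agent.P218N.Ra Vale.Agent.P218F

theorem tqStmt : TqStmt := ⟨40000, by norm_num, fun T γ j α hT hγ hs hj => by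
  obtain ⟨h1, h2⟩ := tq_real (by linarith) hγ (hj.trans (by norm_num)) α
  rw [h1 hs 0 1]
  refine (h2 1).trans ?_
  have := hγ.T_le 1
  have h3 : Real.exp (-((γ.ze 1).re / 4)) ≤ Real.exp (-((γ.ze 1).re / 8)) :=
    Real.exp_le_exp.2 (by linarith)
  gcongr⟩

namespace EP

theorem isOpen_dom {ι : Type} [Fintype ι] {I : Finset ι} {c r : ℝ} {R : ℕ} :
    IsOpen (Dom I c r R) := by
  have : Dom I c r R = {ξ | ‖ξ‖ < r} ∩ ⋂ i ∈ I, {ξ : ι → ℂ | ‖ξ i‖ < c / R} := by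
    ext ξ
    simp [Dom]
  rw [this]
  exact (isOpen_lt continuous_norm continuous_const).inter (isOpen_biInter_finset fun i _ =>
    isOpen_lt (continuous_apply i).norm continuous_const)

theorem norm_cos_le (z : ℂ) : ‖Complex.cos z‖ ≤ Real.exp ‖z‖ := by
  have h1 : ‖Complex.exp (z * I)‖ ≤ Real.exp ‖z‖ := by
    simpa using Complex.norm_exp_le_exp_norm (z * I)
  have h2 : ‖Complex.exp (-z * I)‖ ≤ Real.exp ‖z‖ := by
    simpa using Complex.norm_exp_le_exp_norm (-z * I)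
  rw [Complex.cos, norm_div, Complex.norm_two]
  linarith [norm_add_le (Complex.exp (z * I)) (Complex.exp (-z * I))]

theorem norm_sin_le (z : ℂ) : ‖Complex.sin z‖ ≤ Real.exp ‖z‖ := by
  have h1 : ‖Complex.exp (z * I)‖ ≤ Real.exp ‖z‖ := by
    simpa using Complex.norm_exp_le_exp_norm (z * I)
  have h2 : ‖Complex.exp (-z * I)‖ ≤ Real.exp ‖z‖ := by
    simpa using Complex.norm_exp_le_exp_norm (-z * I)
  rw [Complex.sin, norm_div, norm_mul, Complex.norm_two, Complex.norm_I, mul_one]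
  linarith [norm_sub_le (Complex.exp (-z * I)) (Complex.exp (z * I))]

theorem norm_al_le (c dc : ℂ × ℂ) : ‖al c dc‖ ≤ Real.exp ‖c‖ * ‖dc‖ := by
  have h0 : Real.exp ‖c.1‖ ≤ Real.exp ‖c‖ := Real.exp_le_exp.2 (norm_fst_le c)
  have h1 : 1 ≤ Real.exp ‖c‖ := Real.one_le_exp (norm_nonneg _)
  have h2 := norm_fst_le dc
  have h3 := norm_snd_le dc
  have h4 := norm_nonneg dc
  refine (pi_norm_le_iff_of_nonneg (by positivity)).2 fun i => ?_
  fin_cases i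
  · show ‖dc.2 * Complex.cos c.1‖ ≤ _
    rw [norm_mul, mul_comm]
    exact mul_le_mul ((norm_cos_le _).trans h0) h3 (norm_nonneg _) (by positivity)
  · show ‖-dc.1‖ ≤ _
    rw [norm_neg]
    nlinarith
  · show ‖-(dc.2 * Complex.sin c.1)‖ ≤ _
    rw [norm_neg, norm_mul, mul_comm]
    exact mul_le_mul ((norm_sin_le _).trans h0) h3 (norm_nonneg _) (by positivity)

/-- a holomorphic map has a bounded derivative on the half ball -/
theorem fderiv_bdd {ι B : Type} [Fintype ι] [NormedAddCommGroup B] [NormedSpace ℂ B]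
    {f : (ι → ℂ) → B} {r : ℝ} (hr : 0 < r) (hf : DifferentiableOn ℂ f (ball 0 r)) :
    ∃ A ≥ 0, ∀ ξ, ‖ξ‖ < r / 2 → ‖fderiv ℂ f ξ‖ ≤ A := by
  obtain ⟨M, hM⟩ := (isCompact_closedBall (0 : ι → ℂ) (3 * r / 4)).exists_bound_of_continuousOn
    (hf.continuousOn.mono (closedBall_subset_ball (by linarith)))
  have hM0 : 0 ≤ M := (norm_nonneg _).trans (hM 0 (mem_closedBall_self (by linarith)))
  refine ⟨2 * M / (r / 4), by positivity, fun ξ hξ => ?_⟩
  have hs : ball ξ (r / 4) ⊆ closedBall 0 (3 * r / 4) := fun y hy => by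
    rw [mem_ball_iff_norm] at hy
    rw [mem_closedBall_zero_iff]
    linarith [norm_le_norm_add_norm_sub' y ξ]
  exact norm_fderiv_le_of_bdd (by positivity)
    (hf.mono (hs.trans (closedBall_subset_ball (by linarith)))) fun y hy => hM y (hs hy)

variable {w : E3 → ℝ} {D : EndData w} {N M : ℕ} (Y : Sit D N M)

theorem p0_hol : DifferentiableOn ℂ (fun ξ => pp (Co := Fin D.a) Y.X ξ 0) (ball 0 Y.rX) := by
  obtain ⟨c₁, CX, P₀, h⟩ := Y.ctx.coord
  have h1 : Differentiable ℂ fun ξ : Fin N ⊕ Fin D.b → ℂ => fun i => ξ (.inl i) := by fun_prop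
  have h2 : Differentiable ℂ fun ξ : Fin N ⊕ Fin D.b → ℂ => fun i => ξ (.inr i) := by fun_prop
  refine h1.differentiableOn.prodMk (DifferentiableOn.prodMk ?_ (differentiableOn_const _))
  refine h.hol.comp (h2.prodMk h1).differentiableOn fun ξ hξ => ?_
  rw [mem_ball_zero_iff] at hξ
  exact ⟨mem_ball_zero_iff.2 (((pi_norm_le_iff_of_nonneg (norm_nonneg ξ)).2 fun i =>
      norm_le_pi_norm ξ _).trans_lt hξ),
    mem_ball_zero_iff.2 (((pi_norm_le_iff_of_nonneg (norm_nonneg ξ)).2 fun i =>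
      norm_le_pi_norm ξ _).trans_lt (hξ.trans_le h.rX1))⟩

/-- the torque of the core jet is the torque of its continuation -/
theorem tq_cont {R : ℝ} (hR : TT Y.zm Y.n ≤ R) {b : Fin D.b} {j₁ jf : EJ}
    (h₁ : (ctr (gam Y.zm 4 Y.n) (.inr b : En D)).IsJet j₁)
    (h : Ext.Cont Y.zm Y.n R (.inr b : En D) j₁ jf) (α : C3) :
    TqCyl (gam Y.zm 4 Y.n) 0 j₁ 1 α = TqCyl (Y.γ R) 0 jf 0 α := by
  have hP : PathF D Y.zm := pathStmt w D _ Y.hz
  have hT : 100000 ≤ TT Y.zm Y.n := Y.E.T_ge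
  have hγ : (Y.γ R).RealP (TT Y.zm Y.n) := RE.sg_real hR
  have hz : (gam Y.zm 4 Y.n).ze 1 = (Y.γ R).ze 0 := by rw [Lk.ze_one hP Y.hn, hγ.st]
  have hi : (ctr (gam Y.zm 4 Y.n) (.inr b : En D)).io 1 = (ctr (Y.γ R) (.inr b : En D)).io 0 := by
    rw [PathP.ctr_io (PathP.gam_real ..) (PathP.gam_T Y.hz _), PathP.ctr_io hγ (by linarith), hz]
  have h1 : tr 1 j₁.op = tr 0 jf.op := by
    rw [Cv.tr_op (PathP.ctr_pg (PathP.gam_real ..) (PathP.gam_T Y.hz _) _) h₁ (inv_inv _).symm,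
      Cv.tr_op (PathP.ctr_pg hγ (by linarith) _) h.jet (inv_inv _).symm, hi, h.my, h.mp]
    rfl
  unfold TqCyl
  refine intervalIntegral.integral_congr fun θ _ => ?_
  obtain ⟨a1, a2, -⟩ := Ext.ev_y h.my θ
  simp only [hz, a1, a2, Ext.ev_of_tr h1 θ]

end EP

open EP

theorem eStmt_of (hM : MtStmt) : EStmt := by
  intro w D N M Y π j k F c C R0 h
  obtain ⟨L, hL, hq⟩ := tqStmt
  have hr : 0 < Y.rX := by
    obtain ⟨c₁, CX, P₀, h⟩ := Y.ctx.coord
    exact h.rX0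
  obtain ⟨A, hA0, hA⟩ := fderiv_bdd hr (p0_hol Y)
  have hT : 100000 ≤ TT Y.zm Y.n := Y.E.T_ge
  have hδ := Y.E.δ_le
  have hC := h.C0
  set B : ℝ := ‖Y.tp‖ * A with hB
  have hB0 : 0 ≤ B := by positivity
  refine ⟨C + (Fintype.card (Fin N ⊕ Fin D.b) : ℝ) * B +
    (Fintype.card (En D) : ℝ) * (L * (Real.exp (Y.r / 4) * B)), by positivity, fun R hR ξ hξ => ?_⟩
  have hTR : TT Y.zm Y.n ≤ R := by
    have h1 : 8 * TT Y.zm Y.n ≤ R0 := h.TR
    have h2 : (R0 : ℝ) ≤ R := Nat.cast_le.2 hR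
    linarith
  have hξ' : ξ ∈ Dom (II (Fin N) (Fin D.b)) c Y.rX R := ⟨by linarith [hξ.1], fun i hi =>
    (hξ.2 i hi).trans_le (div_le_div_of_nonneg_right (by linarith [h.c0]) R.cast_nonneg)⟩
  have ms := h.ms R hR ξ hξ'
  have hx : ‖Y.tp (pp Y.X ξ (π R ξ))‖ ≤ Y.r / 4 := Y.hr _ ms.ball
  have hb : Y.tp (pp Y.X ξ (π R ξ)) ∈ ball (0 : Core.Par D (Fin N ⊕ Fin D.b)) Y.r :=
    mem_ball_zero_iff.2 (hx.trans_lt (by linarith [Y.box.r_pos]))
  have d0 : DifferentiableAt ℂ (fun ξ => pp (Co := Fin D.a) Y.X ξ 0) ξ :=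
    (p0_hol Y).differentiableAt (isOpen_ball.mem_nhds (mem_ball_zero_iff.2 hξ'.1))
  have d1 : DifferentiableAt ℂ (π R) ξ := (h.hol R hR).differentiableAt (isOpen_dom.mem_nhds hξ')
  have e0 : (fun ξ => pp Y.X ξ (π R ξ)) = (fun ξ => pp (Co := Fin D.a) Y.X ξ 0) +
      fun ξ => ((0, 0, π R ξ) : CP (Fin N) (Fin D.b) (Fin D.a)) := by
    funext ξ
    simp [pp]
  have d2 : HasFDerivAt (fun ξ => pp Y.X ξ (π R ξ))
      (fderiv ℂ (fun ξ => pp (Co := Fin D.a) Y.X ξ 0) ξ +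
        (0 : _ →L[ℂ] _).prod ((0 : _ →L[ℂ] _).prod (fderiv ℂ (π R) ξ))) ξ := by
    rw [e0]
    exact d0.hasFDerivAt.add ((hasFDerivAt_const _ _).prodMk
      ((hasFDerivAt_const _ _).prodMk d1.hasFDerivAt))
  have hE : Real.exp (-((R : ℝ) / 8)) ≤ Real.exp (-(1 / 40 * R)) :=
    Real.exp_le_exp.2 (by linarith)
  have hE0 := Real.exp_pos (-(1 / 40 * (R : ℝ)))
  have hl0 := norm_nonneg (Y.lm (Y.xx π R ξ))
  refine ContinuousLinearMap.opNorm_le_bound _ (by positivity) fun v => ?_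
  have hv := norm_nonneg v
  have h1 := h.dF R hR ξ hξ v
  set dp := fderiv ℂ (fun ξ => pp Y.X ξ (π R ξ)) ξ v with hdp
  set d := fderiv ℂ (fun ξ => pp (Co := Fin D.a) Y.X ξ 0) ξ v with hd
  have hdB : ‖Y.tp d‖ ≤ B * ‖v‖ := by
    refine (Y.tp.le_opNorm d).trans ?_
    rw [hB, mul_assoc]
    exact mul_le_mul_of_nonneg_left ((ContinuousLinearMap.le_of_opNorm_le _ (hA ξ hξ.1) v))
      (norm_nonneg _)
  have e1 : dp.1 = d.1 ∧ dp.2.1 = d.2.1 := by
    rw [hdp, d2.fderiv, hd]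
    simp
  have e2 : (Y.tp dp).1 = (Y.tp d).1 ∧ (Y.tp dp).2.1 = (Y.tp d).2.1 := by
    simp only [toPar_apply, e1.1, e1.2, and_self]
  have s1 : ‖∑ i, Y.lm (Y.tp (pp Y.X ξ (π R ξ))) i * (Y.tp dp).1 i‖ ≤
      (Fintype.card (Fin N ⊕ Fin D.b) : ℝ) * (‖Y.lm (Y.xx π R ξ)‖ * (B * ‖v‖)) := by
    rw [← Y.xx_eq, e2.1, ← nsmul_eq_mul, ← Finset.card_univ]
    refine (norm_sum_le _ _).trans (Finset.sum_le_card_nsmul _ _ _ fun i _ => ?_)
    rw [norm_mul]
    exact mul_le_mul (norm_le_pi_norm _ i) ((norm_le_pi_norm _ i).trans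
      ((norm_fst_le _).trans hdB)) (norm_nonneg _) hl0
  have s2 : ‖∑ e, TqE (gam Y.zm 4 Y.n) e (Y.jc (Y.tp (pp Y.X ξ (π R ξ))) e) 1 fun b =>
      al ((Y.tp (pp Y.X ξ (π R ξ))).2.1 b) ((Y.tp dp).2.1 b)‖ ≤ (Fintype.card (En D) : ℝ) *
        (L * Real.exp (-((R : ℝ) / 8)) * (Real.exp (Y.r / 4) * (B * ‖v‖))) := by
    rw [← nsmul_eq_mul, ← Finset.card_univ]
    refine (norm_sum_le _ _).trans (Finset.sum_le_card_nsmul _ _ _ fun e _ => ?_)
    cases e with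
    | inl i =>
      rw [TqE, norm_zero]
      positivity
    | inr b =>
      rw [TqE, tq_cont Y hTR (Y.box.jet _ hb _) (hM w D N M Y R _ _ _ hTR ms (.inr b))]
      refine (hq (TT Y.zm Y.n) (Y.γ R) _ _ (by linarith) (RE.sg_real hTR) (ms.cyl b)
        ((norm_le_nrm _ _ _).trans ((ms.ncyl b).trans (by linarith)))).trans ?_
      rw [show (Y.γ R).ze 1 = (R : ℝ) from pg_one, ofReal_re]
      refine mul_le_mul_of_nonneg_left ((norm_al_le _ _).trans ?_) (by positivity)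
      rw [e2.2]
      exact mul_le_mul (Real.exp_le_exp.2 ((norm_le_pi_norm _ b).trans ((norm_fst_le _).trans
        ((norm_snd_le _).trans hx)))) ((norm_le_pi_norm _ b).trans ((norm_fst_le _).trans
        ((norm_snd_le _).trans hdB))) (norm_nonneg _) (by positivity)
  have s3 : ‖Y.S.rest (pp Y.X ξ (π R ξ)) dp‖ ≤ _ :=
    (norm_add_le _ _).trans (add_le_add ((norm_neg _).trans_le s1) s2)
  have s4 := norm_le_norm_add_norm_sub' (fderiv ℂ (F R) ξ v) (Y.S.rest (pp Y.X ξ (π R ξ)) dp)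
  set n1 : ℝ := (Fintype.card (Fin N ⊕ Fin D.b) : ℝ)
  set n2 : ℝ := (Fintype.card (En D) : ℝ)
  have g1 : 0 ≤ n1 := Nat.cast_nonneg _
  have g2 : 0 ≤ n2 := Nat.cast_nonneg _
  have g3 := (Real.exp_pos (Y.r / 4)).le
  generalize Real.exp (Y.r / 4) = G at *
  generalize ‖Y.lm (Y.xx π R ξ)‖ = l at *
  generalize Real.exp (-((R : ℝ) / 8)) = x at *
  generalize Real.exp (-(1 / 40 * (R : ℝ))) = x' at *
  have t1 : C * x * ‖v‖ ≤ C * (l + x') * ‖v‖ := by gcongr; linarith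
  have t2 : n1 * (l * (B * ‖v‖)) ≤ n1 * ((l + x') * (B * ‖v‖)) := by gcongr; linarith
  have t3 : n2 * (L * x * (G * (B * ‖v‖))) ≤ n2 * (L * (l + x') * (G * (B * ‖v‖))) := by
    gcongr; linarith
  calc _ ≤ C * (l + x') * ‖v‖ + n1 * ((l + x') * (B * ‖v‖)) +
        n2 * (L * (l + x') * (G * (B * ‖v‖))) := by linarith
    _ = _ := by ring

end Vale.Agent.P218N.Xt
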