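import Vale.Agent.P218N.Xt.Stmt
import Vale.Agent.P218N.Glue.Bas

/-! The far jets for the slope zero. -/

open Filter Topology Metric Set Complex

noncomputable section

namespace Vale.Agent.P218N.Xt

open Vale.Agent.P218N.End Vale.Agent.P218N.J Vale.Agent.P218N.Glue Vale.Agent.P218F

theorem dom_mono {ι : Type} [Fintype ι] {I : Finset ι} {c c' r r' : ℝ} {R : ℕ} (hc : c ≤ c')
    (hr : r ≤ r') : Dom I c r R ⊆ Dom I c' r' R := fun _ h =>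
  ⟨h.1.trans_le hr, fun i hi => (h.2 i hi).trans_le (by gcongr)⟩

theorem concl_mono {ι : Type} [Fintype ι] [DecidableEq ι] {I : Finset ι} {c c' : ℝ} {R0 R1 : ℕ}
    {F : ℕ → (ι → ℂ) → ℂ} (h : Concl I c R0 F) (hc : c' ≤ c) (hR : R0 ≤ R1) : Concl I c' R1 F :=
  let ⟨f0, θ, C, ρ, κ, N, a1, a2, a3, a4, a5, a6, a7⟩ := h
  ⟨f0, θ, C, ρ, κ, N, a1, a2, a3, a4, a5, a6, fun R h1 x hx =>
    a7 R (hR.trans h1) x (dom_mono (by linarith) le_rfl hx)⟩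

theorem rfStmt_of (h1 : UStmt) (h3 : DFStmt) : RFStmt := by
  intro J0 Cy Co _ _ _ _ _ S E X rX h
  obtain ⟨R0, u, hu⟩ := h1 J0 Cy Co S E X rX h
  obtain ⟨C, C0, hC⟩ := h3 J0 Cy Co S E X rX R0 u h hu
  obtain ⟨R1, hs⟩ := hu.sl _ E.δ₀0
  have hT := E.T_ge
  have d0 := E.δ₀0
  have c1 : E.δ₀ ≤ 1 / 1000 := by linarith [E.δ₀_le, E.δ_le]
  obtain ⟨R2, r0, r1, r2⟩ : ∃ R2 : ℕ, R0 ≤ R2 ∧ R1 ≤ R2 ∧ 8 * S.T ≤ R2 :=
    ⟨max (max R0 R1) ⌈8 * S.T⌉₊, by omega, by omega,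
      (Nat.le_ceil _).trans (Nat.cast_le.2 (le_max_right _ _))⟩
  have sub : ∀ R, Dom (II J0 Cy) E.δ₀ rX R ⊆ Dom (II J0 Cy) (1 / 1000) rX R := fun R =>
    dom_mono c1 le_rfl
  have hR : ∀ R : ℕ, R2 ≤ R → 8 * S.T ≤ R := fun R hR => r2.trans (Nat.cast_le.2 hR)
  have sg1 : ∀ R : ℕ, R2 ≤ R → (sg S.T R).RealP S.T ∧ (sg S.T R).ze 1 = (R : ℝ) := fun R h =>
    E.sub.1 S.T R (by linarith [hR R h])
  have b2 : ‖(0 : ℂ)‖ * S.T ≤ E.ε := by rw [norm_zero, zero_mul]; exact E.ε0.le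
  have z4 : ∀ R : ℕ, ‖(0 : ℂ)‖ ≤ 1 / (4 * R) := fun R => by rw [norm_zero]; positivity
  have up : ∀ R h, ((sg S.T (R : ℕ)).ze 1).re ≤ R := fun R h => by rw [(sg1 R h).2, ofReal_re]
  have zb : ∀ R, R2 ≤ R → ∀ t, ‖(sg S.T (R : ℕ)).ze t - 2‖ ≤ R ∧ ‖(sg S.T (R : ℕ)).ze t‖ ≤ R :=
    fun R h t => by
      have a1 := (sg1 R h).1.T_le t
      have a2 := (re_le_end (sg1 R h).1 t).trans (up R h)
      refine ⟨?_, ((sg1 R h).1.norm_ze (by linarith) t).trans_le a2⟩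
      rw [(sg1 R h).1.ze_eq, ← ofReal_ofNat, ← ofReal_sub, norm_real,
        Real.norm_of_nonneg (by linarith)]
      linarith
  have sa : ∀ R, R2 ≤ R → ∀ ξ ∈ Dom (II J0 Cy) E.δ₀ rX R, ∀ i, ‖(u R ξ).a i‖ * R ≤ 2 * E.δ₀ :=
    fun R h ξ hξ i => by
      have a1 := hs R (r1.trans h) (r0.trans h) ξ (sub R hξ) i
      have a2 := hξ.2 (.inr i) (Finset.mem_map.2 ⟨i, Finset.mem_univ _, rfl⟩)
      rw [← le_div_iff₀ (by linarith [hR R h]), mul_div_assoc]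
      linarith [norm_le_norm_add_norm_sub (ξ (.inr i)) ((u R ξ).a i)]
  have a4 : ∀ R, R2 ≤ R → ∀ ξ ∈ Dom (II J0 Cy) E.δ₀ rX R, ∀ i, ‖(u R ξ).a i‖ < 1 / (4 * R) :=
    fun R h ξ hξ i => by
      rw [lt_div_iff₀ (by linarith [hR R h])]
      linarith [sa R h ξ hξ i]
  have ad : ∀ R, R2 ≤ R → ∀ a : ℂ, ‖a‖ ≤ 1 / (4 * R) → AdmP (1 / 100) E.K S.T a (sg S.T R) :=
    fun R h a ha => E.admP_real (sg1 R h).1 E.K_le_T (up R h) ha
  have cv := fun R h' ξ (hξ : ξ ∈ Dom (II J0 Cy) E.δ₀ rX R) => h.cvms _ E.δ E.δ₀ _ _ 0 _ _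
    (fun i => (sg S.T R).conv ((u R ξ).a i) 0 ((u R ξ).j i)) _ _
    (hu.ms R (r0.trans h') ξ (sub R hξ)) d0.le (by
      have a1 := E.small d0.le E.hδ₀ (n := 2) (by norm_num)
      have a2 := mul_le_mul_of_nonneg_right (E.pow_le (show 1 ≤ 2 by norm_num)) d0.le
      nlinarith [E.δ0]) le_rfl fun i => Or.inr ⟨((hu.sol R (r0.trans h') ξ (sub R hξ)).1.sa i), b2,
      ad R h' _ (a4 R h' ξ hξ i).le, fun t => by
        have a1 := (mul_le_mul_of_nonneg_left (zb R h' t).1 (norm_nonneg _)).trans (sa R h' ξ hξ i)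
        rw [tht, Pi.zero_apply, rh_zero, sub_zero, Complex.norm_ofNat]
        linarith, rfl⟩
  refine ⟨E.δ₀, C, R2, fun R ξ => (u R ξ).π, fun R ξ i => (sg S.T R).conv ((u R ξ).a i) 0
    ((u R ξ).j i), fun R ξ => (u R ξ).k, FU E X u, d0, C0, r2,
    fun R h => (hu.hol R (r0.trans h)).π.mono (sub R), fun R h => differentiableOn_pi.2 fun i => ?_,
    fun R h => (hu.hol R (r0.trans h)).k.mono (sub R), fun R h ξ hξ => (cv R h ξ hξ).1,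
    fun R h ξ hξ => ?_, fun R h ξ hξ => (cv R h ξ hξ).2.symm,
    fun R h ξ hξ => hC R (r0.trans h) ξ (dom_mono (by linarith) le_rfl hξ),
    concl_mono hu.concl c1 r0⟩
  · have a1 := (E.conv E.K S.T 0 0 0 _ le_rfl E.K_le_T (E.sa_K b2) (E.sa_K b2) (ad R h 0 (z4 R))
      (by norm_num) (fun t => by simp [tht]) (by rw [rh_zero]; exact two_ne_zero)).2.2 R
        fun t => (zb R h t).2
    have a2 : DifferentiableOn ℂ (fun ξ => ((u R ξ).a i, (u R ξ).j i)) _ :=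
      ((differentiableOn_pi.1 (hu.hol R (r0.trans h)).a i).prodMk
        (differentiableOn_pi.1 (hu.hol R (r0.trans h)).j i)).mono (sub R)
    have a3 := a1.comp a2 fun ξ hξ => a4 R h ξ hξ i
    exact a3
  · obtain ⟨a1, a2, a3, a5⟩ := hu.cj R (r0.trans h) ξ (sub R hξ)
    refine ⟨a2, fun i => ?_, a5⟩
    have a6 := ((E.cj S.T R _ ((u R ξ).j i) (by linarith) (sg1 R h).1).1 ((u R ξ).a i) 0 (up R h)
      (a4 R h ξ hξ i).le (z4 R)).2.2.2.2.2.2.1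
    rw [map_zero] at a6
    rw [a1, a3]
    exact a6

end Vale.Agent.P218N.Xt
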