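import Vale.Agent.P218N.Xt.Sl
import Vale.Agent.P218N.Xt.RF
import Vale.Agent.P218N.Glue.Fv
import Vale.Agent.P218N.Glue.LinkE

/-! The far jets of the truncated solutions; the assembly of the block EXT. -/

open Filter Topology Metric Set Complex

noncomputable section

namespace Vale.Agent.P218N.Xt

open Vale.Agent.P218N.End Vale.Agent.P218N.J Vale.Agent.P218N.Glue Vale.Agent.P218N.Core
  Vale.Agent.P218N.H Vale.Agent.P218N.Ra Vale.Agent.P218F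

section glue
variable {J0 Cy Co : Type} [Fintype J0] [Fintype Cy] [Fintype Co] {S : Sys J0 Cy Co}

/-- the area of the tails -/
theorem tails (E : Env S) {γ : Path} (hγ : γ.RealP S.T) {p : CP J0 Cy Co} {j : Cy → EJ}
    {k : Co → EJ} (m : S.MS E.δ E.r₀ p 0 (fun _ => γ) j (fun _ => γ) k) {t : ℝ} (ht : t ≤ 1) :
    ‖S.Fc p + (∑ e, γ.FKI (S.cc e) (S.ka e) (k e) 0 t + ∑ i, γ.FCI 0 (j i) 0 t) -
      S.val p 0 (fun _ => γ) j (fun _ => γ) k‖ ≤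
      (∑ _i : Cy, E.C * (1 + 2) * Real.exp 2 + ∑ _e : Co, E.C) * Real.exp (-((γ.ze t).re / 5)) := by
  have b2 : ‖(0 : ℂ)‖ * S.T ≤ E.ε := by rw [norm_zero, zero_mul]; exact E.ε0.le
  have h0 := fun t => E.T0.le.trans (hγ.T_le t)
  have c := fun i => (E.lagC S.T E.K_le_T).2.2 0 γ (j i) 2 (E.sa_K b2) (E.admP_real hγ E.K_le_T
    le_rfl (by rw [norm_zero]; have := h0 1; positivity)) (FvP.ms_j E m i)
  have d := fun e => (E.lagK e γ hγ).2 (k e) (FvP.ms_k E m hγ).1 (FvP.ms_k E m hγ).2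
  have e1 : S.val p 0 (fun _ => γ) j (fun _ => γ) k = S.Fc p +
      ∑ i, (γ.FCI 0 (j i) 0 t + γ.FCI 0 (j i) t 1) + ∑ e, (γ.FKI (S.cc e) (S.ka e) (k e) 0 t +
        γ.FKI (S.cc e) (S.ka e) (k e) t 1) := by
    simp only [fun i => (c i).1 0 t 1, fun e => (d e).2.1 0 t 1]
    rfl
  rw [e1, Finset.sum_add_distrib, Finset.sum_add_distrib, ← norm_neg, add_mul, Finset.sum_mul,
    Finset.sum_mul]
  refine (congrArg norm (by ring)).trans_le ((norm_add_le _ _).trans (add_le_add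
    (norm_sum_le_of_le _ fun i _ => (((c i).2 fun s => by simp [rh]).1 t 1 ht).trans ?_)
    (norm_sum_le_of_le _ fun e _ => (d e).2.2.1 t 1 ht)))
  have := E.C0
  gcongr _ * Real.exp ?_
  linarith [h0 t]

end glue

variable {w : E3 → ℝ} {D : EndData w} {N M : ℕ}

theorem far_of (hM : MtStmt) (hA : AStmt) (hE : EStmt) (Y : Sit D N M) {π j k F c C R0}
    (h : RF Y.E Y.X Y.rX c C R0 π j k F) : ∃ C', Ext.Far Y.jE Y.zm Y.n Y.r Y.jc Y.lm Y.Fc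
      (II _ _) c Y.rX (1 / 40) C' R0 Y.yf Y.cf (Y.om π) (fun R ξ => Sum.elim (k R ξ) (j R ξ)) F := by
  obtain ⟨C1, c1, a⟩ := hA w D N M Y π j k F c C R0 h
  obtain ⟨C2, c2, b⟩ := hE w D N M Y π j k F c C R0 h
  obtain ⟨_, _, _, hc⟩ := Y.ctx.coord
  have hT : 100000 ≤ TT Y.zm Y.n := Y.E.T_ge
  have hR : ∀ R : ℕ, R0 ≤ R → 8 * TT Y.zm Y.n ≤ R := fun R hR => h.TR.trans (Nat.cast_le.2 hR)
  have sg1 : ∀ R : ℕ, R0 ≤ R → (sg (TT Y.zm Y.n) R).RealP (TT Y.zm Y.n) ∧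
      (sg (TT Y.zm Y.n) R).ze 1 = (R : ℝ) := fun R h => Y.E.sub.1 _ R (by linarith [hR R h])
  have sl := fun R h => slStmt _ _ _ _ Y.E Y.ctx.cmp Y.ctx.restr _ (sg1 R h).1
  obtain ⟨C3, c3, e1, e2, e3, e4⟩ : ∃ C3, 0 ≤ C3 ∧ C1 ≤ C3 ∧ C2 ≤ C3 ∧ 5 ≤ C3 ∧
      ∑ _i : Fin D.b, Y.E.C * (1 + 2) * Real.exp 2 + ∑ _e : Fin D.a, Y.E.C ≤ C3 :=
    ⟨max (max C1 C2) (max 5 _), by positivity, by simp, by simp, by simp,
      (le_max_right _ _).trans (le_max_right _ _)⟩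
  have ex : ∀ R : ℕ, R0 ≤ R → ∀ t, ((sg (TT Y.zm Y.n) R).ze t).re ≤ R / 2 → 5 * Real.exp
      (-((((sg (TT Y.zm Y.n) R).ze 1).re - ((sg (TT Y.zm Y.n) R).ze t).re) / 8)) ≤
        C3 * Real.exp (-(1 / 40 * R)) := fun R h t ht => by
    rw [(sg1 R h).2, ofReal_re]
    exact mul_le_mul e3 (Real.exp_le_exp.2 (by linarith [hR R h])) (Real.exp_pos _).le c3
  refine ⟨C3, h.c0, hc.rX0, by norm_num, c3, h.TR, a.yhol, a.chol, a.y0, a.c00, a.yinj, a.ohol,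
    a.xb, fun R h ξ hξ => (a.ostep R h ξ hξ).trans (by gcongr),
    fun R h => (a.ozero R h).trans (by gcongr), a.real, fun R h' ξ hξ e => ?_,
    fun R h' => differentiableOn_pi.2 fun e => ?_, fun R h' ξ hξ e t _ _ => ?_,
    fun R h' ξ hξ e => ?_, fun R h' e t _ ht => le_trans ?_ (ex R h' t ht), fun R h' x hx e => ?_,
    fun R h' x hx t ht h8 => ?_, fun R h x hx => (b R h _ hx).trans (by gcongr), h.concl⟩
  · have := hM w D N M Y R _ _ _ (by linarith [hR R h']) (h.ms R h' ξ hξ) e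
    rwa [← Y.xx_eq] at this
  · cases e
    · exact differentiableOn_pi.1 (h.khol R h') _
    · exact differentiableOn_pi.1 (h.jhol R h') _
  · have a1 := ptN_le (ctr (sg (TT Y.zm Y.n) R) e) (mu e) 1
      (Sum.elim (k R ξ) (j R ξ) e - Y.jE e (sg (TT Y.zm Y.n) R)) t
    rw [BoundedContinuousFunction.coe_one, Pi.one_apply, norm_one, one_mul] at a1
    refine a1.trans (le_trans (mul_le_of_le_one_right (by norm_num) ?_) e3)
    have a2 := Y.E.δ_le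
    cases e with
    | inl i => exact ((h.ms R h' ξ hξ).ncone i).trans (by linarith [Y.E.δ0])
    | inr i => exact (nrm_sub_le _ _ _ _ _).trans ((add_le_add ((h.ms R h' ξ hξ).ncyl i)
        ((sl R h').1.ncyl i)).trans (by linarith [Y.E.δ0]))
  · have h1 := h'.trans R.le_succ
    obtain ⟨φ, a1, a2⟩ := Y.E.sub.2.1 _ _ (R + 1 : ℕ) (sg1 R h').1
      (lt_of_lt_of_le (by linarith) (hR _ h1)) (by rw [(sg1 R h').2, ofReal_re]; simp)
    have hξ' : ξ ∈ Dom (II _ _) c Y.rX R := ⟨hξ.1, fun i hi => (hξ.2 i hi).trans_le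
      (div_le_div_of_nonneg_left h.c0.le (by linarith [hR R h']) (by simp))⟩
    have a3 := ((sl R h').2 (pp Y.X ξ (π R ξ)) (pp Y.X ξ (π (R + 1) ξ)) _ _ _ _ rfl rfl
      (h.ms R h' ξ hξ')).2 _ φ (sg1 _ h1).1 a1 a2 (h.ms _ h1 ξ hξ)
    refine ⟨φ, a1, fun t _ ht => le_trans ?_ (ex R h' t ht)⟩
    cases e
    · exact a3.cone _ t
    · exact a3.cyl _ t
  · have a3 := ((sl R h').2 0 (pp Y.X 0 (π R 0)) _ _ _ _ rfl hc.zero.symm (sl R h').1).1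
      (h.ms R h' 0 ⟨norm_zero.trans_lt hc.rX0, fun _ _ => norm_zero.trans_lt
        (div_pos h.c0 (by linarith [hR R h']))⟩)
    cases e
    · exact a3.cone _ t
    · exact a3.cyl _ t
  · have a1 := (h.cj R h' _ hx).2
    rw [show star (re2c x) = re2c x from funext fun i => conj_ofReal _] at a1
    cases e
    · exact (a1.2 _).symm
    · exact (a1.1 _).symm
  · have a1 := tails Y.E (sg1 R h').1 (h.ms R h' _ hx) ht.2
    rw [h8, show -((R : ℝ) / 8 / 5) = -(1 / 40 * R) by ring] at a1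
    rw [Fintype.sum_sum_type, h.val R h' _ hx]
    refine le_trans (le_of_eq ?_) (a1.trans (by gcongr))
    congr 3
    exact congrArg Y.Fc (Y.xx_eq π R _)

theorem extStmt_of (hc : ∀ (J0 Cy Co : Type) [Fintype J0] [Fintype Cy] [Fintype Co]
    (S : Sys J0 Cy Co) (E : Env S), ∃ X rX, E.Ctx X rX) (hR : RFStmt) (hM : MtStmt) (hA : AStmt)
    (hE : EStmt) (hF : Ext.FunStmt) : ExtStmt := by
  intro w D jE dS πS Z C h G
  refine ⟨max 1000 Z, fun zm hz N M ψ P O C0 g ρ _ hg hb => ?_⟩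
  rw [max_le_iff] at hz
  obtain ⟨n, r, C', u, jc, lm, Fc, hn, -, box, E, hr⟩ := envL hz.1 h hz.2 hg hb 0
  obtain ⟨X, rX, ctx⟩ := hc _ _ _ _ E
  obtain ⟨c, C1, R0, π, j, k, F, h1⟩ := hR _ _ _ _ E X rX ctx
  obtain ⟨C2, h2⟩ := far_of hM hA hE ⟨G, zm, ψ, P, O, jE, dS, πS, Z, C, g, ρ, n, r, C', u, jc, lm,
    Fc, E, X, rX, hz.1, h, hz.2, hn, hg, box, hr, ctx⟩ h1
  obtain ⟨C3, v, h3⟩ := hF _ _ _ _ _ _ _ _ _ _ _ _ _ _ _ _ _ _ _ _ _ _ _ _ _ _ _ _ _ _ _ _ h hz.1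
    hz.2 hn box h2
  exact ⟨n, r, C', u, jc, lm, Fc, hn, box, _, _, _, _, _, _, _, _, _, _, _, h3⟩

end Vale.Agent.P218N.Xt
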