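import Vale.Agent.P218N.Xt.Stmt

/-! Matched solutions continue the core jets. -/

open Filter Topology Metric Set Complex

noncomputable section

namespace Vale.Agent.P218N.Xt

open Vale.Agent.P218N.End Vale.Agent.P218N.J Vale.Agent.P218N.Glue Vale.Agent.P218N.Core
  Vale.Agent.P218N.H Vale.Agent.P218N.Ra Vale.Agent.P218F

namespace MtP

theorem nd_cyl {y b : ℂ} (hy : ‖y‖ ≤ 1 / 10) (hb : ‖b‖ ≤ 1 / 10) :
    ((1 + y) ^ 2 + b ^ 2) * (1 + y) ≠ 0 := by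
  have n1 := norm_nonneg y
  have n2 := norm_nonneg b
  refine mul_ne_zero (fun h => ?_) fun h => ?_
  · have e : (1 : ℂ) = -(2 * y + y ^ 2 + b ^ 2) := by linear_combination h
    have := congrArg norm e
    rw [norm_one, norm_neg] at this
    have h1 : ‖2 * y + y ^ 2 + b ^ 2‖ ≤ ‖2 * y‖ + ‖y ^ 2‖ + ‖b ^ 2‖ := norm_add₃_le
    rw [norm_mul, norm_pow, norm_pow, Complex.norm_ofNat] at h1
    nlinarith
  · have e : (1 : ℂ) = -y := by linear_combination h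
    have := congrArg norm e
    rw [norm_one, norm_neg] at this
    linarith

theorem nd_cone {κ y b : ℂ} (hy : ‖y‖ ≤ 1 / 10) (h1 : ‖coneD κ y y b - 1‖ ≤ 1 / 2)
    (h2 : ‖coneD κ (-y) (-y) (-b) - 1‖ ≤ 1 / 2) :
    ((1 - κ * y) ^ 2 + b ^ 2) * (1 - κ * y) ≠ 0 := by
  have n1 := norm_nonneg y
  have n2 := norm_nonneg (κ * y)
  have a : ‖κ * y‖ ≤ 1 / 2 := by
    have e : 4 * (κ * y) * (1 + y ^ 2) = (coneD κ (-y) (-y) (-b) - 1) - (coneD κ y y b - 1) := by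
      unfold coneD; ring
    have h3 := norm_sub_le (coneD κ (-y) (-y) (-b) - 1) (coneD κ y y b - 1)
    rw [← e, norm_mul, norm_mul, Complex.norm_ofNat] at h3
    have h4 := norm_sub_le (1 + y ^ 2) (y ^ 2)
    rw [add_sub_cancel_right, norm_one, norm_pow] at h4
    nlinarith [mul_le_mul_of_nonneg_left (show 1 / 2 ≤ ‖1 + y ^ 2‖ by nlinarith) n2]
  refine mul_ne_zero (fun h => ?_) fun h => ?_
  · have e : (1 : ℂ) = ((1 - κ * y) * y) ^ 2 - (coneD κ y y b - 1) := by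
      unfold coneD; linear_combination h
    have h3 := norm_sub_le (((1 - κ * y) * y) ^ 2) (coneD κ y y b - 1)
    rw [← e, norm_one, norm_pow, norm_mul] at h3
    have h4 := norm_sub_le 1 (κ * y)
    rw [norm_one] at h4
    have h5 : ‖1 - κ * y‖ * ‖y‖ ≤ 3 / 2 * (1 / 10) := by gcongr; linarith
    nlinarith [mul_nonneg (norm_nonneg (1 - κ * y)) n1]
  · have e : κ * y = 1 := by linear_combination -h
    rw [e, norm_one] at a
    linarith

theorem y_le (j : EJ) (t θ : ℝ) : ‖ev j.y t θ‖ ≤ ‖j.y2‖ := (norm_ev_le _ _ _).trans j.norm_y_le'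
theorem yt_le (j : EJ) (t θ : ℝ) : ‖ev j.yt t θ‖ ≤ ‖j.y2‖ := (norm_ev_le _ _ _).trans j.norm_yt_le'

theorem lag {c B C T : ℝ} {ka kd : WD} (h : LagK c ka kd B C T) (hB : 0 ≤ B) {γ : Path}
    (hγ : γ.RealP T) {j : EJ} (hj : ‖j.y2‖ ≤ 1 / C) (t θ : ℝ) :
    ‖coneD (W.sumL θ ka) (ev j.y t θ) (ev j.y t θ) (c * ev j.yt t θ) - 1‖ ≤ 1 / 2 := by
  have := ((h γ hγ).2 (j.y2, 0, 0, 0) hj (norm_zero.trans_le hB)).1 t θ
  rwa [show EJ.op (j.y2, 0, 0, 0) = 0 from rfl, ev_zero, mul_zero, add_zero] at this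

end MtP

open MtP

theorem mtStmt : MtStmt := by
  intro w D N M Y R p j k hR h e
  have hP : PathF D Y.zm := pathStmt w D _ Y.hz
  have hb : Y.tp p ∈ ball (0 : Core.Par D (Fin N ⊕ Fin D.b)) Y.r :=
    mem_ball_zero_iff.2 ((Y.hr p h.ball).trans_lt (by linarith [Y.box.r_pos]))
  have hT : 100000 ≤ TT Y.zm Y.n := Y.E.T_ge
  have h0 : ‖(0 : ℂ)‖ < 1 / (4 * TT Y.zm Y.n) := by rw [norm_zero]; positivity
  have hp := Y.box.piT_eq _ hb e
  rw [(Lk.base hP Y.hE Y.hZ Y.hn e).2, toPar_apply] at hp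
  have hδ := Y.E.δ_le
  cases e with
  | inl i =>
    have hγ : (Y.γ R).RealP (TT Y.zm Y.n) := RE.sg_real hR
    obtain ⟨r1, r2, -⟩ := Y.E.kref i _ hγ
    have n1 : ‖(k i).y2‖ ≤ 2 * Y.E.δ := by
      have := (EJ.norm_y2_le _).trans ((norm_le_nrm _ _ _).trans (h.ncone i))
      have e : (k i).y2 = (k i - Y.S.kS i (Y.γ R)).y2 + (Y.S.kS i (Y.γ R)).y2 :=
        (sub_add_cancel _ _).symm
      rw [e]
      exact (norm_add_le _ _).trans (by linarith)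
    have n2 : ‖(k i).y2‖ ≤ 1 / Y.E.C := by
      have := Y.E.small Y.E.ε0.le Y.E.hε (n := 1) (by norm_num)
      rw [le_div_iff₀ Y.E.C0]
      nlinarith [Y.E.hδ, Y.E.C0, Y.E.δ0, mul_le_mul_of_nonneg_right n1 Y.E.C0.le,
        mul_le_mul_of_nonneg_right Y.E.hδ Y.E.C0.le, mul_pos Y.E.δ0 Y.E.C0]
    have hB : 0 ≤ Y.E.BK + 1 := by linarith [norm_nonneg (Y.S.kS i (Y.γ R)).op]
    refine ⟨(h.cone i).1, (h.cone i).2, (h.ky i).symm.trans (add_sub_cancel _ _),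
      (h.kp i).symm.trans (by rw [toPar_apply]; exact hp.symm), fun θ => ?_⟩
    have a1 := lag (Y.E.lagK i) hB hγ n2 0 θ
    have a2 := lag (j := -k i) (Y.E.lagK i) hB hγ ((norm_neg _).trans_le n2) 0 θ
    rw [show (-k i).y = -(k i).y from map_neg _ _, show (-k i).yt = -(k i).yt from map_neg _ _,
      ev_neg, ev_neg, mul_neg] at a2
    have := nd_cone ((y_le _ 0 θ).trans (by linarith)) a1 a2
    rwa [show W.sumL θ (Y.S.ka i) = _ from PathP.sumL_ka i θ] at this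
  | inr i =>
    have n1 : ‖(j i).y2‖ ≤ 1 / 10 :=
      (EJ.norm_y2_le _).trans ((norm_le_nrm _ _ _).trans ((h.ncyl i).trans (by linarith)))
    obtain ⟨c1, c2, -⟩ := Y.E.pt2 (TT Y.zm Y.n) 0 0 0 (tr 0 (j i).y2) ((Y.γ R).piC 0 (j i) 0)
      (by linarith) h0 h0 h0
    refine ⟨(h.cyl i).1, (h.cyl i).2, c1.symm.trans ((h.my i).symm.trans (add_sub_cancel _ _)),
      c2.symm.trans ((h.mp i).symm.trans (by rw [toPar_apply]; exact hp.symm)), fun θ => ?_⟩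
    exact nd_cyl ((y_le _ 0 θ).trans n1) ((yt_le _ 0 θ).trans n1)

end Vale.Agent.P218N.Xt
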