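import Vale.Agent.P218N.Xt.Stmt
import Vale.Agent.P218N.Glue.S1a
import Vale.Agent.P218N.Glue.Sl

/-! Two solutions for the slope zero with the same core parameters. -/

open Filter Topology Metric Set Complex

noncomputable section

namespace Vale.Agent.P218N.Xt

open Vale.Agent.P218N.End Vale.Agent.P218N.J Vale.Agent.P218N.Glue

variable {J0 Cy Co : Type} [Fintype J0] [Fintype Cy] [Fintype Co] {S : Sys J0 Cy Co}

theorem cl_of (E : Env S) (h : E.Cmp) {γ : Path} (hγ : γ.RealP S.T) {p p' : CP J0 Cy Co}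
    {j j' : Cy → EJ} {k k' : Co → EJ} (e1 : p.1 = p'.1) (e2 : p.2.1 = p'.2.1)
    (m : S.MS E.δ E.r₀ p 0 (fun _ => γ) j (fun _ => γ) k)
    (m' : S.MS E.δ E.r₀ p' 0 (fun _ => γ) j' (fun _ => γ) k') :
    Cl S γ p.2.2 p'.2.2 j j' k k' := by
  have hC := E.hC
  have hT := E.T_ge
  have d0 := E.δ0
  have b2 : ‖(0 : ℂ)‖ * S.T ≤ E.ε := by rw [norm_zero, zero_mul]; exact E.ε0.le
  have ad : AdmP (1 / 100) E.K S.T 0 γ := E.admP_real hγ E.K_le_T le_rfl (by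
    rw [norm_zero]; exact div_nonneg zero_le_one (by linarith [hγ.T_le 1]))
  have w := E.wt E.K S.T 0 γ le_rfl E.K_le_T (E.sa_K b2) ad
  set x := Real.exp (-(((γ.ze 1).re - S.T) / 8)) with hx
  have x0 : 0 < x := Real.exp_pos _
  have hle : Real.exp (-(1 / 8 * ((γ.ze 1).re - S.T))) ≤ x := Real.exp_le_exp.2 (by linarith)
  have c5 : 4 * E.C ^ 5 * E.δ ≤ 1 := by
    have := Rs.eps5 E
    have := mul_le_mul_of_nonneg_right E.hδ (show 0 ≤ E.C ^ 5 by positivity)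
    linarith
  have c4 : 2 * E.C * (E.C ^ 4 * (x * (2 * E.δ))) ≤ x := by
    rw [show 2 * E.C * (E.C ^ 4 * (x * (2 * E.δ))) = 4 * E.C ^ 5 * E.δ * x by ring]
    exact mul_le_of_le_one_left x0.le c5
  obtain ⟨r1, r2, r3⟩ := h p' p sdAll 0 _ _ _ _ k' k (fun _ => ((1 / 8 : ℝ) : ℂ) • 1)
    (fun _ => ((1 / 8 : ℝ) : ℂ) • 1) (x * (2 * E.δ)) 0 m' m (by positivity)
    (by rw [e2, sub_self, norm_zero])
    (fun i => ⟨b2, ad, w.2.2.2.2.2.2.2.2.1, by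
      rw [bwd_sdAll, norm_zero, zero_add]
      refine mul_le_mul ((w.2.2.2.2.1 _ 1).1.trans_le hle) ((norm_sub_le _ _).trans ?_)
        (norm_nonneg _) x0.le
      have := (tr_pi_le_one _ _ _ 1).trans (m.ncyl i)
      have := (tr_pi_le_one _ _ _ 1).trans (m'.ncyl i)
      unfold Path.piC
      linarith⟩)
    (fun e => ⟨hγ, (E.wtK _ hγ).2.1, by
      refine mul_le_mul (((E.wtK _ hγ).2.2 _ 1).1.trans_le hle) ?_ (norm_nonneg _) x0.le
      rw [← piK_sub]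
      have a1 := nrm_tri γ.cone (muCone (S.cc e)) 1 (k' e) (S.kS e γ) (k e)
      rw [nrm_sub_rev _ _ _ (S.kS e γ)] at a1
      exact (tr_pi_le_one _ _ _ 1).trans (a1.trans (by linarith [m.ncone e, m'.ncone e]))⟩)
    (E.C ^ 4 * (x * (2 * E.δ))) (by rw [e1, sub_self, norm_zero]; simp)
  have key : ∀ t : ℝ, 5 * Real.exp (1 / 8 * ((γ.ze t).re - S.T)) * x =
      5 * Real.exp (-(((γ.ze 1).re - (γ.ze t).re) / 8)) := fun t => by
    rw [hx, mul_assoc, ← Real.exp_add]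
    congr 2
    ring
  refine ⟨r1.trans (le_trans (le_mul_of_one_le_left (by positivity) (by linarith)) c4),
    fun i t => (ptN_le_Wt _ _ _ (((1 / 8 : ℝ) : ℂ) • 1) t).trans ?_,
    fun e t => (ptN_le_Wt _ _ _ (((1 / 8 : ℝ) : ℂ) • 1) t).trans ?_⟩
  · rw [(w.2.2.2.2.1 _ t).2, ← key]
    exact mul_le_mul_of_nonneg_left ((r2 i).2.trans (by rw [zero_add]; exact c4)) (by positivity)
  · rw [((E.wtK _ hγ).2.2 _ t).2, ← key]
    exact mul_le_mul_of_nonneg_left ((r3 e).trans c4) (by positivity)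

theorem slStmt : SlStmt := by
  intro J0 Cy Co _ _ _ S E h1 h2 γ hγ
  have h0 : 0 ≤ (γ.ze 1).re := E.T0.le.trans (hγ.T_le 1)
  refine ⟨(E.s1sym h1 E.cjms _ (fun _ => γ) (fun _ => γ) (hγ.T_le 1)
    ⟨fun _ => ⟨hγ, h0, le_rfl⟩, fun _ => ⟨hγ, h0⟩⟩).1.ms, fun p p' j j' k k' e1 e2 m =>
    ⟨cl_of E h1 hγ e1 e2 m, fun γ' φ hγ' hs h0 m' => cl_of E h1 hγ e1 e2 m ?_⟩⟩
  refine (h2 _ p' 0 _ (fun _ => γ) j' _ (fun _ => γ) k' (fun _ => φ) (fun _ => φ) le_rfl m'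
    (fun i => ⟨?_, admP_mono (E.admP_real hγ' E.K_le_T le_rfl ?_) (by norm_num)
      (half_le_self E.K0.le), hγ.ok, hs, h0⟩) fun e => ⟨hγ', hγ, hs, h0⟩).1
  · rw [Pi.zero_apply, norm_zero, zero_mul]; exact E.ε0.le
  · rw [Pi.zero_apply, norm_zero]
    exact div_nonneg zero_le_one (by linarith [hγ'.T_le 1, E.T0])

end Vale.Agent.P218N.Xt
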