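import Vale.Agent.P218N.Xt.DF
import Vale.Agent.P218N.Glue.Easy
import Vale.Agent.P218N.Glue.S1a
import Vale.Agent.P218N.Glue.Bas

/-! The solutions on the segments `[T, R]`. -/

open Filter Topology Metric Set Complex
open scoped ComplexConjugate

noncomputable section

namespace Vale.Agent.P218N.Xt.UB

open Vale.Agent.P218N.End Vale.Agent.P218N.J Vale.Agent.P218N.Glue Vale.Agent.P218F

theorem concl_congr {ι : Type} [Fintype ι] [DecidableEq ι] {I : Finset ι} {c r : ℝ} {R0 R1 : ℕ}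
    {F G : ℕ → (ι → ℂ) → ℂ} (h : Concl I c R0 F) (hc : 0 < c) (hr : 0 < r) (hR : R0 ≤ R1)
    (h1 : 1 ≤ R1) (e : ∀ R, R1 ≤ R → ∀ ξ ∈ Dom I c r R, G R ξ = F R ξ) : Concl I c R1 G := by
  obtain ⟨f0, θ, C, ρ, κ, N, a1, a2, a3, a4, a5, a6, a7⟩ := h
  refine ⟨f0, θ, C, min ρ r, κ, N, a1, a2, a3, lt_min a4 hr, a5, a6.congr' ?_, fun R h2 x hx => ?_⟩
  · filter_upwards [eventually_ge_atTop R1] with R h2
    refine (e R h2 0 ⟨by rwa [norm_zero], fun i _ => ?_⟩).symm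
    have : (0 : ℝ) < R := Nat.cast_pos.2 (by omega)
    rw [Pi.zero_apply, norm_zero]
    positivity
  · have hm : re2c x ∈ Dom I c r R := ⟨hx.1.trans_le (min_le_right _ _), fun i hi =>
      (hx.2 i hi).trans_le (by gcongr; linarith)⟩
    rw [e R h2 _ hm, Filter.EventuallyEq.fderiv_eq
      (mem_of_superset (DFP.isOpen_dom.mem_nhds hm) (e R h2))]
    exact a7 R (hR.trans h2) x ⟨hx.1.trans_le (min_le_left _ _), hx.2⟩

theorem star_mem {ι : Type} [Fintype ι] {I : Finset ι} {c r : ℝ} {R : ℕ} {ξ : ι → ℂ}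
    (h : ξ ∈ Dom I c r R) : star ξ ∈ Dom I c r R :=
  ⟨(norm_star ξ).trans_lt h.1, fun i hi => (norm_star (ξ i)).trans_lt (h.2 i hi)⟩

theorem small {CM η : ℝ} (hη : 0 < η) : ∃ R1 : ℕ, ∀ R : ℕ, R1 ≤ R →
    CM * (1 / (R : ℝ)) ^ (27 / 20 : ℝ) ≤ η / R := by
  have h1 : Tendsto (fun R : ℕ => CM * (R : ℝ) ^ (-(7 / 20) : ℝ)) atTop (𝓝 (CM * 0)) :=
    ((tendsto_rpow_neg_atTop (by norm_num)).comp tendsto_natCast_atTop_atTop).const_mul CM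
  rw [mul_zero] at h1
  obtain ⟨R1, h2⟩ := eventually_atTop.1 ((h1.eventually (ge_mem_nhds hη)).and
    (eventually_ge_atTop 1))
  refine ⟨R1, fun R hR => ?_⟩
  have h0 : (0 : ℝ) < R := Nat.cast_pos.2 (h2 R hR).2
  rw [one_div, Real.inv_rpow h0.le, ← Real.rpow_neg h0.le,
    show (-(27 / 20) : ℝ) = -(7 / 20) - 1 by norm_num, Real.rpow_sub_one h0.ne', ← mul_div_assoc]
  exact div_le_div_of_nonneg_right (h2 R hR).1 h0.le

variable {J0 Cy Co : Type} [Fintype J0] [Fintype Cy] [Fintype Co] {S : Sys J0 Cy Co} {E : Env S}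
  {X : XT J0 Cy} {rX : ℝ}

/-- conjugation of the unknowns -/
def cjU (u : TU Cy Co) : TU Cy Co :=
  ⟨star u.a, cjD u.π, fun i => (u.j i).cj, fun e => (u.k e).cj⟩

theorem ts_cj (h : E.Ctx X rX) {R : ℝ} (hR : S.T ≤ R) {β : Cy → ℂ} {b : J0 → ℂ} {u : TU Cy Co}
    (hβ : ‖β‖ < rX) (hb : ‖b‖ < E.r) (ha : ∀ i, ‖u.a i‖ ≤ 1 / (4 * R))
    (t : E.TS X (rd Cy Co S.T R) β b u) :
    E.TS X (rd Cy Co S.T R) (star β) (star b) (cjU u) ∧
      E.tv X (rd Cy Co S.T R) (star β) (star b) (cjU u) =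
        conj (E.tv X (rd Cy Co S.T R) β b u) := by
  obtain ⟨_, _, _, hc⟩ := h.coord
  obtain ⟨hp, h1⟩ := E.sub.1 S.T R hR
  have hT := E.T_ge
  have up : ((sg S.T R).ze 1).re ≤ R := by rw [h1, ofReal_re]
  have lo : 0 ≤ ((sg S.T R).ze 1).re := by rw [h1, ofReal_re]; linarith
  obtain ⟨c1, c2, -, c4⟩ := h.cjms E.δ R (b, X (β, b), u.π) u.a (fun _ => sg S.T R) u.j
    (fun _ => sg S.T R) u.k le_rfl ⟨fun _ => ⟨hp, lo, up⟩, fun _ => ⟨hp, lo⟩⟩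
    (fun i => ⟨ha i, t.sa i⟩) t.ms
  have e : cjP (b, X (β, b), u.π) = (star b, X (star β, star b), cjD u.π) := by
    rw [hc.real β b hβ hb]; rfl
  rw [e] at c1 c2
  have ck := fun e (j : EJ) => ((E.cj S.T R _ j (by linarith) hp).2 (S.cc e) _ _
    (S1a.krl E e).1 (S1a.krl E e).2).2.2.1
  refine ⟨⟨c1, fun i => admP_mono (E.admP_real hp E.K_le_T up ((norm_star _).trans_le (ha i)))
    (by norm_num) (by linarith [E.K0]), fun i => ?_, fun i => ?_, fun i => ?_, fun e => ?_⟩, c2⟩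
  · exact (congrArg (· * S.T) (norm_star (u.a i))).trans_le (t.sa i)
  · change star ((u.j i).y2.c (-0) 1) = 0
    rw [neg_zero, t.y0, star_zero]
  · have e2 := ((E.cj S.T R _ (u.j i) (by linarith) hp).1 (u.a i) (u.a i) up (ha i) (ha i)).2.2.1
    have e3 : tr 1 (((sg S.T R).cyl (u.a i)).piJ muCyl (u.j i)) = 0 := t.om i
    change tr 1 (((sg S.T R).cyl (conj (u.a i))).piJ muCyl (u.j i).cj) = 0
    rw [e2, ← cj_tr, e3, W.cj_zero]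
  · have e3 : tr 1 ((sg S.T R).cone.piJ (muCone (S.cc e)) (u.k e)) =
        tr 1 ((sg S.T R).cone.piJ (muCone (S.cc e)) (S.kS e (sg S.T R))) := (t.oc e).trans (add_zero _)
    change tr 1 ((sg S.T R).cone.piJ (muCone (S.cc e)) (u.k e).cj) =
      tr 1 ((sg S.T R).cone.piJ (muCone (S.cc e)) (S.kS e (sg S.T R))) + 0
    rw [add_zero, ck, ← cj_tr, e3, cj_tr, ← ck, c4]

theorem uStmt_of (g : GFStmt) (jp : JumpStmt) (bf : BlockFV)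
    (hs : ∀ (J0 Cy Co : Type) [Fintype J0] [Fintype Cy] [Fintype Co] [DecidableEq J0]
      [DecidableEq Cy] (S : Sys J0 Cy Co) (E : Env S) (X : XT J0 Cy) (rX : ℝ), E.Ctx X rX →
      Spec0 (E.par rX) (E.Sol X)) : UStmt := by
  intro J0 Cy Co _ _ _ _ _ S E X rX h
  obtain ⟨R0, o, sp, gf, ho⟩ := g _ (E.par rX) (E.Sol X) (hs _ _ _ S E X rX h)
  have hT := E.T_ge
  have r0 : 0 < rX := gf.r_pos
  have TR : ∀ R : ℕ, R0 ≤ R → S.T < R := fun R hR => lt_of_lt_of_le sp.TR (Nat.cast_le.2 hR)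
  have nb : ∀ {R : ℕ} {ξ : J0 ⊕ Cy → ℂ}, ξ ∈ Dom (II J0 Cy) (1 / 1000) rX R →
      ‖fun i => ξ (.inr i)‖ < rX ∧ ‖fun i => ξ (.inl i)‖ < E.r := fun {R ξ} hξ =>
    ⟨(pi_norm_lt_iff r0).2 fun i => (norm_le_pi_norm ξ _).trans_lt hξ.1,
      ((pi_norm_lt_iff r0).2 fun i => (norm_le_pi_norm ξ _).trans_lt hξ.1).trans_le h.rX_le⟩
  have a1 : ∀ R : ℕ, R0 ≤ R → ∀ ξ ∈ Dom (II J0 Cy) (1 / 1000) rX R, ∀ i,
      ‖(o R ξ).a (.inr i)‖ ≤ 1 / (100 * R) := fun R hR ξ hξ i =>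
    ((ho R hR).2 ξ hξ).2.1 _ (E.mem_I rX i)
  have a4 : ∀ R : ℕ, R0 ≤ R → ∀ ξ ∈ Dom (II J0 Cy) (1 / 1000) rX R, ∀ i,
      ‖(o R ξ).a (.inr i)‖ ≤ 1 / (4 * R) := fun R hR ξ hξ i =>
    (a1 R hR ξ hξ i).trans (one_div_le_one_div_of_le (by linarith [TR R hR])
      (by linarith [TR R hR]))
  have sg1 := fun (R : ℕ) hR => E.sub.1 S.T R (TR R hR).le
  have up : ∀ R (hR : R0 ≤ R), ((sg S.T ((R : ℕ) : ℝ)).ze 1).re ≤ R := fun R h => by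
    rw [(sg1 R h).2, ofReal_re]
  have ad := fun (R : ℕ) hR ξ hξ i => E.admP_real (sg1 R hR).1 E.K_le_T (up R hR) (a4 R hR ξ hξ i)
  have cj : ∀ R : ℕ, R0 ≤ R → ∀ ξ ∈ Dom (II J0 Cy) (1 / 1000) rX R,
      conj (o R ξ).v = (o R (star ξ)).v ∧
        ∀ i, star ((o R ξ).a (.inr i)) = (o R (star ξ)).a (.inr i) := fun R hR ξ hξ => by
    obtain ⟨π, k, t, e⟩ := ((ho R hR).2 ξ hξ).1
    obtain ⟨b1, b2⟩ := ts_cj h (u := tu (o R ξ) π k) (TR R hR).le (nb hξ).1 (nb hξ).2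
      (a4 R hR ξ hξ) t
    obtain ⟨b3, b4⟩ := ((ho R hR).2 _ (star_mem hξ)).2.2
      ⟨star (o R ξ).a, fun i => ((o R ξ).j i).cj, conj (o R ξ).v⟩
      ⟨cjD π, fun e => (k e).cj, b1, (congrArg conj e).trans b2.symm⟩
      (Env.forall_I.2 fun i => (norm_star _).trans_le (a1 R hR ξ hξ i))
    exact ⟨b3, fun i => (b4 _ (E.mem_I rX i)).1⟩
  have cc := bf _ _ _ _ _ _ _ gf (fun R hR x hx => by
    have b := (cj R hR _ hx).1
    rw [show star (re2c x) = re2c x from funext fun i => conj_ofReal _] at b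
    exact conj_eq_iff_im.1 b) (jp _ _ _ _ _ _ sp)
  obtain ⟨CM, -, ρ₀, hρ₀, hf⟩ := h.s2ex 1 le_rfl
  obtain ⟨R1, r1, r2⟩ : ∃ R1 : ℕ, R0 ≤ R1 ∧ 1 / ρ₀ ≤ R1 := ⟨max R0 ⌈1 / ρ₀⌉₊, le_max_left _ _,
    (Nat.le_ceil _).trans (Nat.cast_le.2 (le_max_right _ _))⟩
  have key : ∀ R : ℕ, ∃ u : (J0 ⊕ Cy → ℂ) → TU Cy Co, R1 ≤ R →
      HolU (Dom (II J0 Cy) (1 / 1000) rX R) u ∧ ∀ ξ ∈ Dom (II J0 Cy) (1 / 1000) rX R,
        E.TS X (rd Cy Co S.T R) (fun i => ξ (.inr i)) (fun i => ξ (.inl i)) (u ξ) ∧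
        (u ξ).a = (fun i => (o R ξ).a (.inr i)) ∧
        E.tv X (rd Cy Co S.T R) (fun i => ξ (.inr i)) (fun i => ξ (.inl i)) (u ξ) = (o R ξ).v ∧
        E.Prof CM (1 / R) (rd Cy Co S.T R) (fun i => ξ (.inr i)) (u ξ) := fun R => by
    by_cases hR : R1 ≤ R
    swap
    · exact ⟨fun _ => ⟨0, 0, 0, 0⟩, fun h => absurd h hR⟩
    have hR0 := r1.trans hR
    have p0 : (0 : ℝ) < R := by linarith [TR R hR0]
    have e1 : 1 / (1 * (1 / (R : ℝ))) = R := by rw [one_mul, one_div_one_div]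
    have pre : (sg S.T (R : ℝ)).Pre (1 / (1 * (1 / (R : ℝ)))) := ⟨1, ⟨zero_le_one, le_rfl⟩,
      fun t _ => (sg1 R hR0).1.im_ze t, by rw [e1, (sg1 R hR0).2, ofReal_re]⟩
    obtain ⟨β, u, -, hu, h1⟩ := hf (1 / R) (by positivity)
      ((one_div_le p0 hρ₀).2 (r2.trans (Nat.cast_le.2 hR))) _ (Dom (II J0 Cy) (1 / 1000) rX R)
      (fun _ => rd Cy Co S.T R) (fun ξ i => (o R ξ).a (.inr i)) (fun ξ i => ξ (.inl i))
      ⟨DFP.isOpen_dom, fun _ _ _ _ => rfl, fun _ => differentiableOn_const _,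
        fun _ => differentiableOn_const _, differentiableOn_const _, differentiableOn_const _,
        fun _ _ _ _ _ => Pre.cpre pre⟩
      (differentiableOn_pi.2 fun i => (ho R hR0).1.a _ (E.mem_I rX i))
      (differentiableOn_pi.2 fun i => (differentiable_apply _).differentiableOn)
      fun ξ hξ => ⟨⟨fun i => (a1 R hR0 ξ hξ i).trans (by
          rw [one_mul]; exact one_div_le_one_div_of_le p0 (by linarith)), ad R hR0 ξ hξ,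
        fun i t => by
          rw [one_div_one_div]
          exact ((sg1 R hR0).1.norm_ze (by linarith) t).trans_le
            ((re_le_end (sg1 R hR0).1 t).trans (up R hR0)),
        fun _ => pre, e1.le, fun _ => norm_zero.trans_le E.δ₀0.le,
        fun _ => norm_zero.trans_le E.δ₀0.le⟩, (nb hξ).2⟩
    refine ⟨u, fun _ => ⟨hu, fun ξ hξ => ?_⟩⟩
    obtain ⟨π, k, t, e⟩ := ((ho R hR0).2 ξ hξ).1
    obtain ⟨b1, b2⟩ := h.s2uq (rd Cy Co S.T R) _ _ _ (tu (o R ξ) π k) (u ξ) (TR R hR0).le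
      (ad R hR0 ξ hξ) (h1 ξ hξ).1 (nb hξ).1 (h1 ξ hξ).2.1 (nb hξ).2 t (h1 ξ hξ).2.2.1
    exact ⟨b1 ▸ (h1 ξ hξ).2.2.1, (h1 ξ hξ).1, b2 ▸ e.symm, b1 ▸ (h1 ξ hξ).2.2.2⟩
  choose u hu using key
  refine ⟨R1, u, TR R1 r1, fun R hR => (hu R hR).1, fun R hR ξ hξ => ⟨((hu R hR).2 ξ hξ).1,
    fun i => by rw [((hu R hR).2 ξ hξ).2.1]; exact a1 R (r1.trans hR) ξ hξ i⟩,
    fun R hR ξ hξ => ?_, fun η hη => ?_, fun R hR ξ hξ => ?_,
    concl_congr cc (by norm_num) r0 r1 (gf.R0_pos.trans r1) fun R hR ξ hξ =>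
      ((hu R hR).2 ξ hξ).2.2.1⟩
  · obtain ⟨t, -, -, p⟩ := (hu R hR).2 ξ hξ
    refine t.ms.mono p.nc fun e => (p.nk e).trans ?_
    change _ + _ * ‖(0 : WD)‖ ≤ _
    rw [norm_zero]
    nlinarith [E.δ₁_le, E.C1, E.δ₀0, E.δ₁0]
  · obtain ⟨R2, h2⟩ := small (CM := CM) hη
    exact ⟨R2, fun R b1 b2 ξ hξ i => ((norm_le_pi_norm ((fun i => ξ (.inr i)) - (u R ξ).a) i).trans
      ((hu R b2).2 ξ hξ).2.2.2.sl).trans (h2 R b1)⟩
  · have hR0 := r1.trans hR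
    obtain ⟨t, ea, -⟩ := (hu R hR).2 ξ hξ
    obtain ⟨t', ea', -⟩ := (hu R hR).2 _ (star_mem hξ)
    have b := (h.s2uq (rd Cy Co S.T R) _ _ _ (u R (star ξ)) (cjU (u R ξ)) (TR R hR0).le
      (fun i => by rw [ea']; exact ad R hR0 _ (star_mem hξ) i)
      (by rw [ea', cjU, ea]; exact funext (cj R hR0 ξ hξ).2) (nb (star_mem hξ)).1
      (nb (star_mem hξ)).1 (nb (star_mem hξ)).2 t' (ts_cj h (TR R hR0).le (nb hξ).1 (nb hξ).2
        (fun i => by rw [ea]; exact a4 R hR0 ξ hξ i) t).1).2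
    rw [b]
    exact ⟨rfl, rfl, fun _ => rfl, fun _ => rfl⟩

end Vale.Agent.P218N.Xt.UB
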