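import Vale.Agent.P218N.Xt.Far
import Vale.Agent.P218N.Xt.RF
import Vale.Agent.P218N.Xt.DF
import Vale.Agent.P218N.Xt.Sl
import Vale.Agent.P218N.Xt.Mt
import Vale.Agent.P218N.Xt.A
import Vale.Agent.P218N.Xt.E
import Vale.Agent.P218N.Xt.UB
import Vale.Agent.P218N.Glue.All
import Vale.Agent.P218N.J.GF
import Vale.Agent.P218N.J.Main
import Vale.Agent.P218F.BlockFV
import Vale.Agent.P218N.Ext.Fun

/-! The block EXT. -/

namespace Vale.Agent.P218N.Xt

theorem uStmt : UStmt := UB.uStmt_of J.gfStmt J.jumpStmt P218F.blockFV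
  fun _ _ _ _ _ _ _ _ _ _ _ _ h => h.spec0'

theorem extStmt : Ra.ExtStmt :=
  extStmt_of (fun _ _ _ _ _ _ _ E => E.exists_ctx) (rfStmt_of uStmt dfStmt) mtStmt
    (aStmt_of slStmt) (eStmt_of mtStmt) Ext.funStmt

end Vale.Agent.P218N.Xt
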