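import Vale.Agent.P218N.Glue.Link
import Vale.Agent.P218N.Glue.Stmt
import Vale.Agent.P218N.Ext.Far

/-! The block EXT: definitions and the statements of the steps. -/

open Filter Topology Metric Set Complex

noncomputable section

namespace Vale.Agent.P218N.Xt

open Vale.Agent.P218N.End Vale.Agent.P218N.J Vale.Agent.P218N.Glue Vale.Agent.P218N.Core
  Vale.Agent.P218N.H Vale.Agent.P218N.Ra Vale.Agent.P218F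

/-! ### The real truncations of the glued problem -/

section glue
variable {J0 Cy Co : Type} [Fintype J0] [Fintype Cy] [Fintype Co] [DecidableEq J0] [DecidableEq Cy]
  {S : Sys J0 Cy Co}

/-- the indices of the cylindrical ends -/
def II (J0 Cy : Type) [Fintype Cy] : Finset (J0 ⊕ Cy) := Finset.univ.map Function.Embedding.inr

/-- the parameters of the core problem -/
def pp (X : XT J0 Cy) (ξ : J0 ⊕ Cy → ℂ) (π : Dat Cy Co) : CP J0 Cy Co :=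
  (fun i => ξ (.inl i), X (fun i => ξ (.inr i), fun i => ξ (.inl i)), π)

/-- all ends stop at `R` -/
def rd (Cy Co : Type) (T R : ℝ) : TD Cy Co := ⟨fun _ => sg T R, 0, R, 0⟩

/-- the Gaussian area -/
def FU (E : Env S) (X : XT J0 Cy) (u : ℕ → (J0 ⊕ Cy → ℂ) → TU Cy Co) (R : ℕ) (ξ : J0 ⊕ Cy → ℂ) :
    ℂ := E.tv X (rd Cy Co S.T R) (fun i => ξ (.inr i)) (fun i => ξ (.inl i)) (u R ξ)

/-- the solutions on the segments `[T, R]` -/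
structure UF (E : Env S) (X : XT J0 Cy) (rX : ℝ) (R0 : ℕ) (u : ℕ → (J0 ⊕ Cy → ℂ) → TU Cy Co) :
    Prop where
  TR : S.T < R0
  hol : ∀ R, R0 ≤ R → HolU (Dom (II J0 Cy) (1 / 1000) rX R) (u R)
  sol : ∀ R, R0 ≤ R → ∀ ξ ∈ Dom (II J0 Cy) (1 / 1000) rX R,
    E.TS X (rd Cy Co S.T R) (fun i => ξ (.inr i)) (fun i => ξ (.inl i)) (u R ξ) ∧
      ∀ i, ‖(u R ξ).a i‖ ≤ 1 / (100 * R)
  ms : ∀ R, R0 ≤ R → ∀ ξ ∈ Dom (II J0 Cy) (1 / 1000) rX R,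
    S.MS (2 * E.C * E.δ₀) E.r₀ (pp X ξ (u R ξ).π) (u R ξ).a (fun _ => sg S.T R) (u R ξ).j
      (fun _ => sg S.T R) (u R ξ).k
  sl : ∀ η > 0, ∃ R1 : ℕ, ∀ R, R1 ≤ R → R0 ≤ R → ∀ ξ ∈ Dom (II J0 Cy) (1 / 1000) rX R, ∀ i,
    ‖ξ (.inr i) - (u R ξ).a i‖ ≤ η / R
  cj : ∀ R, R0 ≤ R → ∀ ξ ∈ Dom (II J0 Cy) (1 / 1000) rX R,
    (u R (star ξ)).a = star (u R ξ).a ∧ (u R (star ξ)).π = cjD (u R ξ).π ∧
      (∀ i, (u R (star ξ)).j i = ((u R ξ).j i).cj) ∧ ∀ e, (u R (star ξ)).k e = ((u R ξ).k e).cj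
  concl : Concl (II J0 Cy) (1 / 1000) R0 (FU E X u)

/-- the first variation, up to exponentially small fluxes -/
def DF (S : Sys J0 Cy Co) (X : XT J0 Cy) (rX c C : ℝ) (R : ℕ) (π : (J0 ⊕ Cy → ℂ) → Dat Cy Co)
    (F : (J0 ⊕ Cy → ℂ) → ℂ) : Prop := ∀ ξ ∈ Dom (II J0 Cy) (c / 2) (rX / 2) R, ∀ v,
  ‖fderiv ℂ F ξ v - S.rest (pp X ξ (π ξ)) (fderiv ℂ (fun ξ => pp X ξ (π ξ)) ξ v)‖ ≤
    C * Real.exp (-((R : ℝ) / 8)) * ‖v‖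

/-- the result at the level of the glued problem, jets for the slope zero -/
structure RF (E : Env S) (X : XT J0 Cy) (rX c C : ℝ) (R0 : ℕ)
    (π : ℕ → (J0 ⊕ Cy → ℂ) → Dat Cy Co) (j : ℕ → (J0 ⊕ Cy → ℂ) → Cy → EJ)
    (k : ℕ → (J0 ⊕ Cy → ℂ) → Co → EJ) (F : ℕ → (J0 ⊕ Cy → ℂ) → ℂ) : Prop where
  c0 : 0 < c
  C0 : 0 ≤ C
  TR : 8 * S.T ≤ R0
  hol : ∀ R, R0 ≤ R → DifferentiableOn ℂ (π R) (Dom (II J0 Cy) c rX R)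
  jhol : ∀ R, R0 ≤ R → DifferentiableOn ℂ (j R) (Dom (II J0 Cy) c rX R)
  khol : ∀ R, R0 ≤ R → DifferentiableOn ℂ (k R) (Dom (II J0 Cy) c rX R)
  ms : ∀ R, R0 ≤ R → ∀ ξ ∈ Dom (II J0 Cy) c rX R, S.MS E.δ E.r₀ (pp X ξ (π R ξ)) 0
    (fun _ => sg S.T R) (j R ξ) (fun _ => sg S.T R) (k R ξ)
  cj : ∀ R, R0 ≤ R → ∀ ξ ∈ Dom (II J0 Cy) c rX R, π R (star ξ) = cjD (π R ξ) ∧
    (∀ i, j R (star ξ) i = (j R ξ i).cj) ∧ ∀ e, k R (star ξ) e = (k R ξ e).cj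
  val : ∀ R, R0 ≤ R → ∀ ξ ∈ Dom (II J0 Cy) c rX R, F R ξ = S.val (pp X ξ (π R ξ)) 0
    (fun _ => sg S.T R) (j R ξ) (fun _ => sg S.T R) (k R ξ)
  dF : ∀ R, R0 ≤ R → DF S X rX c C R (π R) (F R)
  concl : Concl (II J0 Cy) c R0 F

end glue

/-- (X1) -/
def UStmt : Prop := ∀ (J0 Cy Co : Type) [Fintype J0] [Fintype Cy] [Fintype Co] [DecidableEq J0]
  [DecidableEq Cy] (S : Sys J0 Cy Co) (E : Env S) (X : XT J0 Cy) (rX : ℝ), E.Ctx X rX →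
  ∃ R0 u, UF E X rX R0 u

/-- (X2) -/
def RFStmt : Prop := ∀ (J0 Cy Co : Type) [Fintype J0] [Fintype Cy] [Fintype Co] [DecidableEq J0]
  [DecidableEq Cy] (S : Sys J0 Cy Co) (E : Env S) (X : XT J0 Cy) (rX : ℝ), E.Ctx X rX →
  ∃ c C R0 π j k F, RF E X rX c C R0 π j k F

/-- (X3) -/
def DFStmt : Prop := ∀ (J0 Cy Co : Type) [Fintype J0] [Fintype Cy] [Fintype Co] [DecidableEq J0]
  [DecidableEq Cy] (S : Sys J0 Cy Co) (E : Env S) (X : XT J0 Cy) (rX : ℝ) R0 u, E.Ctx X rX →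
  UF E X rX R0 u → ∃ C ≥ 0, ∀ R, R0 ≤ R →
    DF S X rX (1 / 1000) C R (fun ξ => (u R ξ).π) (FU E X u R)

/-- two solutions on the path `γ` are exponentially close -/
structure Cl {J0 Cy Co : Type} (S : Sys J0 Cy Co) [Fintype Cy] [Fintype Co] (γ : Path)
    (π π' : Dat Cy Co) (j j' : Cy → EJ) (k k' : Co → EJ) : Prop where
  pi : ‖π' - π‖ ≤ Real.exp (-(((γ.ze 1).re - S.T) / 8))
  cyl : ∀ i t, ptN (γ.cyl 0) muCyl (j' i - j i) t ≤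
    5 * Real.exp (-(((γ.ze 1).re - (γ.ze t).re) / 8))
  cone : ∀ e t, ptN γ.cone (muCone (S.cc e)) (k' e - k e) t ≤
    5 * Real.exp (-(((γ.ze 1).re - (γ.ze t).re) / 8))

/-- (X0) the base solution; two solutions for the slope zero with the same `(b, x)` -/
def SlStmt : Prop := ∀ (J0 Cy Co : Type) [Fintype J0] [Fintype Cy] [Fintype Co] (S : Sys J0 Cy Co)
  (E : Env S), E.Cmp → E.Restr → ∀ γ : Path, γ.RealP S.T →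
  S.MS E.δ E.r₀ 0 0 (fun _ => γ) (fun i => S.jS i γ) (fun _ => γ) (fun e => S.kS e γ) ∧
  ∀ (p p' : CP J0 Cy Co) j j' k k', p.1 = p'.1 → p.2.1 = p'.2.1 →
    S.MS E.δ E.r₀ p 0 (fun _ => γ) j (fun _ => γ) k →
    (S.MS E.δ E.r₀ p' 0 (fun _ => γ) j' (fun _ => γ) k' → Cl S γ p.2.2 p'.2.2 j j' k k') ∧
    ∀ (γ' : Path) (φ : ℝ → ℝ), γ'.RealP S.T → Sub φ γ' γ → φ 0 = 0 →
      S.MS E.δ E.r₀ p' 0 (fun _ => γ') j' (fun _ => γ') k' →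
      Cl S γ p.2.2 p'.2.2 j (fun i => (j' i).cmp φ) k fun e => (k' e).cmp φ

/-- (X6) -/
def TqStmt : Prop := ∃ L ≥ 0, ∀ (T : ℝ) (γ : Path) (j : EJ) (α : C3), 1000 ≤ T → γ.RealP T →
  γ.IsCyl 0 j → ‖j‖ ≤ 1 / 1000 →
    ‖TqCyl γ 0 j 0 α‖ ≤ L * Real.exp (-((γ.ze 1).re / 8)) * ‖α‖

/-! ### The situation -/

/-- all data -/
structure Sit {w : E3 → ℝ} (D : EndData w) (N M : ℕ) where
  G : Geo D
  zm : ℝ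
  ψ : Fin N ⊕ Fin D.b → E3 → ℝ
  P : Fin M → Patch (SS w)
  O : Fin M → Set R2
  jE : En D → Path → EJ
  dS : En D → ℝ → WD
  πS : En D → ℝ → WD
  Z : ℝ
  CE : ℝ
  g : Fin D.b → ℝ
  ρ : Fin D.b → ℝ
  n : ℕ
  r : ℝ
  Cc : ℝ
  u : Core.Par D (Fin N ⊕ Fin D.b) → E3 → ℂ
  jc : Core.Par D (Fin N ⊕ Fin D.b) → En D → EJ
  lm : Core.Par D (Fin N ⊕ Fin D.b) → Fin N ⊕ Fin D.b → ℂ
  Fc : Core.Par D (Fin N ⊕ Fin D.b) → ℂ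
  E : Env (sysOf jE dS πS zm n g ρ jc lm Fc)
  X : XT (Fin N) (Fin D.b)
  rX : ℝ
  hz : 1000 ≤ zm
  hE : RealEnds D jE dS πS Z CE
  hZ : Z ≤ zm
  hn : 4 ≤ n
  hg : ∀ b, g b ≠ 0 ∧ ρ b ≠ 0
  box : CoreBox G zm ψ P O (fun e => Res 4 n (jE e (gam zm 0 n))) n r Cc u jc lm Fc
  hr : ∀ p, ‖p‖ < E.r₀ → ‖toPar (N := N) (TT zm n) g ρ p‖ ≤ r / 4
  ctx : E.Ctx X rX

namespace Sit
variable {w : E3 → ℝ} {D : EndData w} {N M : ℕ} (Y : Sit D N M)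

/-- the glued problem -/
abbrev S : Sys (Fin N) (Fin D.b) (Fin D.a) :=
  sysOf Y.jE Y.dS Y.πS Y.zm Y.n Y.g Y.ρ Y.jc Y.lm Y.Fc
/-- the parameters of the core box -/
abbrev tp : CP (Fin N) (Fin D.b) (Fin D.a) →L[ℂ] Core.Par D (Fin N ⊕ Fin D.b) :=
  toPar (TT Y.zm Y.n) Y.g Y.ρ
/-- the domains -/
abbrev Dm (c r : ℝ) (R : ℕ) : Set (Fin N ⊕ Fin D.b → ℂ) := Dom (II (Fin N) (Fin D.b)) c r R
/-- the segments -/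
abbrev γ (R : ℝ) : Path := sg (TT Y.zm Y.n) R
def yf (ξ : Fin N ⊕ Fin D.b → ℂ) : Fin N ⊕ Fin D.b → ℂ := (Y.tp (pp Y.X ξ 0)).1
def cf (ξ : Fin N ⊕ Fin D.b → ℂ) : Fin D.b → ℂ × ℂ := (Y.tp (pp Y.X ξ 0)).2.1

variable (π : ℕ → (Fin N ⊕ Fin D.b → ℂ) → Dat (Fin D.b) (Fin D.a))
  (j : ℕ → (Fin N ⊕ Fin D.b → ℂ) → Fin D.b → EJ) (k : ℕ → (Fin N ⊕ Fin D.b → ℂ) → Fin D.a → EJ)
  (F : ℕ → (Fin N ⊕ Fin D.b → ℂ) → ℂ)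

def om (_ : Sit D N M) (π : ℕ → (Fin N ⊕ Fin D.b → ℂ) → Dat (Fin D.b) (Fin D.a)) (R : ℕ)
    (ξ : Fin N ⊕ Fin D.b → ℂ) : En D → WD := Sum.elim (π R ξ).2 (π R ξ).1
/-- the parameters of the core box -/
abbrev xx (R : ℕ) (ξ : Fin N ⊕ Fin D.b → ℂ) : Core.Par D (Fin N ⊕ Fin D.b) :=
  (Y.yf ξ, Y.cf ξ, Y.om π R ξ)

theorem xx_eq (R : ℕ) (ξ : Fin N ⊕ Fin D.b → ℂ) : Y.xx π R ξ = Y.tp (pp Y.X ξ (π R ξ)) := by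
  simp only [xx, yf, cf, om, toPar_apply, pp]

/-- the fields of `Ext` about the parameters -/
structure ExtA (c C : ℝ) (R0 : ℕ) : Prop where
  yhol : DifferentiableOn ℂ Y.yf (ball 0 Y.rX)
  chol : DifferentiableOn ℂ Y.cf (ball 0 Y.rX)
  y0 : Y.yf 0 = 0
  c00 : Y.cf 0 = 0
  yinj : ∀ b : Fin N ⊕ Fin D.b → ℝ, (∀ k, (fderiv ℂ Y.yf 0 (re2c b) k).re = 0) → b = 0
  ohol : ∀ R, R0 ≤ R → DifferentiableOn ℂ (Y.om π R) (Dm c Y.rX R)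
  xb : ∀ R, R0 ≤ R → ∀ ξ ∈ Dm c Y.rX R, ‖Y.xx π R ξ‖ ≤ Y.r / 4
  ostep : ∀ R, R0 ≤ R → ∀ ξ ∈ Dm c Y.rX (R + 1),
    ‖Y.om π (R + 1) ξ - Y.om π R ξ‖ ≤ C * Real.exp (-(1 / 40 * R))
  ozero : ∀ R, R0 ≤ R → ‖Y.om π R 0‖ ≤ C * Real.exp (-(1 / 40 * R))
  real : ∀ R, R0 ≤ R → ∀ x, re2c x ∈ Dm c Y.rX R →
    Core.cjP (Y.xx π R (re2c x)) = Y.xx π R (re2c x)

/-- the field `dF` of `Ext` -/
def ExtE (c C : ℝ) (R0 : ℕ) : Prop := ∀ R, R0 ≤ R → ∀ ξ ∈ Dm (c / 2) (Y.rX / 2) R,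
  ‖fderiv ℂ (F R) ξ‖ ≤ C * (‖Y.lm (Y.xx π R ξ)‖ + Real.exp (-(1 / 40 * R)))

end Sit

/-- (X5) matched solutions continue the core jets -/
def MtStmt : Prop := ∀ (w : E3 → ℝ) (D : EndData w) (N M : ℕ) (Y : Sit D N M) (R : ℝ) p j k,
  TT Y.zm Y.n ≤ R → Y.S.MS Y.E.δ Y.E.r₀ p 0 (fun _ => Y.γ R) j (fun _ => Y.γ R) k →
    ∀ e, Ext.Cont Y.zm Y.n R e (Y.jc (Y.tp p) e) (Sum.elim k j e)

/-- (X7) -/
def AStmt : Prop := ∀ (w : E3 → ℝ) (D : EndData w) (N M : ℕ) (Y : Sit D N M) π j k F c C R0,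
  RF Y.E Y.X Y.rX c C R0 π j k F → ∃ C' ≥ 0, Y.ExtA π c C' R0

/-- (X9) -/
def EStmt : Prop := ∀ (w : E3 → ℝ) (D : EndData w) (N M : ℕ) (Y : Sit D N M) π j k F c C R0,
  RF Y.E Y.X Y.rX c C R0 π j k F → ∃ C' ≥ 0, Y.ExtE π F c C' R0

end Vale.Agent.P218N.Xt
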